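import Crest.Agent.SW.SiegelA

/-!
# `Σ Λ(n) χ(n)` from `Σ μ(n) χ(n)` for non-principal characters (helper301)

Hyperbola method: `Λ = μ * log`, and the sums `Σ χ(e) log e` are `≤ 4 q log`.
-/

set_option autoImplicit false

open Filter Finset

namespace Crest.Agent.SW


/-- Siegel–Walfisz for `Λ χ`, `χ` non-principal -/
def LamNonpr : Prop := ∀ A B : ℝ, ∃ C : ℝ, ∀ x : ℝ, 2 ≤ x → ∀ q : ℕ, 1 ≤ q →
  (q : ℝ) ≤ (Real.log x) ^ B → ∀ χ : DirichletCharacter ℂ q, χ ≠ 1 →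
    ‖∑ n ∈ Finset.Icc 1 ⌊x⌋₊, (ArithmeticFunction.vonMangoldt n : ℂ) * χ n‖ ≤
      C * x / (Real.log x) ^ A

namespace LamChi








lemma sum_inv_le {x : ℝ} (hx : 1 ≤ x) {Y : ℕ} (hY : (Y : ℝ) ≤ x) :
    ∑ e ∈ Ioc 0 Y, (e : ℝ)⁻¹ ≤ 1 + Real.log x := by
  have h1 : ∑ e ∈ Ioc 0 Y, (e : ℝ)⁻¹ = (harmonic Y : ℝ) := by
    rw [harmonic_eq_sum_Icc]
    push_cast
    rfl
  rw [h1]
  refine (harmonic_le_one_add_log Y).trans ?_
  rcases Nat.eq_zero_or_pos Y with rfl | h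
  · simp only [Nat.cast_zero, Real.log_zero, add_zero]
    linarith [Real.log_nonneg hx]
  · have := Real.log_le_log (by exact_mod_cast h) hY
    linarith



end LamChi


end Crest.Agent.SW
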