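import Crest.Agent.SW.SqConv
import Crest.Agent.SW.LamChi301
import Crest.Agent.R001.SW.EF
import Crest.Agent.R001.SW.Zeta
import Crest.Agent.SW.Engine3_259

-- ▼ part SW/Forms
section

/-!
# Siegel–Walfisz: forms of the statements

`Sav P f`: for all real `A B` there is `C` such that for all `x ≥ 2`, all `1 ≤ q ≤ (log x)^B` and
all characters `χ mod q` with `P q χ`: `|∑_{n ≤ x} f(n) χ(n)| ≤ C x/(log x)^A`.
-/

namespace Crest.Agent.SW

open Finset

/-- saving of an arbitrary power of `log` in character sums -/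
def Sav (P : ∀ q : ℕ, DirichletCharacter ℂ q → Prop) (f : ℕ → ℂ) : Prop :=
  ∀ A B : ℝ, ∃ C : ℝ, ∀ x : ℝ, 2 ≤ x → ∀ q : ℕ, 1 ≤ q → (q : ℝ) ≤ (Real.log x) ^ B →
    ∀ χ : DirichletCharacter ℂ q, P q χ →
      ‖∑ n ∈ Finset.Icc 1 ⌊x⌋₊, f n * χ n‖ ≤ C * x / (Real.log x) ^ A

lemma norm_char_sum_trivial {f : ℕ → ℂ} (hf : ∀ n : ℕ, 1 ≤ n → ‖f n‖ ≤ 1 + Real.log n) {q : ℕ}
    (χ : DirichletCharacter ℂ q) {x : ℝ} (hx : 1 ≤ x) :
    ‖∑ n ∈ Finset.Icc 1 ⌊x⌋₊, f n * χ n‖ ≤ x * (1 + Real.log x) := by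
  have hx0 : 0 ≤ x := by linarith
  have hl : 0 ≤ Real.log x := Real.log_nonneg hx
  calc ‖∑ n ∈ Finset.Icc 1 ⌊x⌋₊, f n * χ n‖ ≤ ∑ n ∈ Finset.Icc 1 ⌊x⌋₊, ‖f n * χ n‖ :=
        norm_sum_le _ _
    _ ≤ ∑ n ∈ Finset.Icc 1 ⌊x⌋₊, (1 + Real.log x) := by
        refine Finset.sum_le_sum fun n hn => ?_
        rw [mem_Icc] at hn
        rw [norm_mul]
        have h1 := hf n hn.1
        have h2 : Real.log n ≤ Real.log x := by
          apply Real.log_le_log (by exact_mod_cast hn.1)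
          exact (Nat.le_floor_iff hx0).mp hn.2
        have h3 : ‖χ n‖ ≤ 1 := χ.norm_le_one _
        calc ‖f n‖ * ‖χ n‖ ≤ (1 + Real.log x) * 1 := by
              gcongr; linarith
          _ = _ := mul_one _
    _ = ⌊x⌋₊ * (1 + Real.log x) := by
        rw [Finset.sum_const, Nat.card_Icc, nsmul_eq_mul, Nat.add_sub_cancel]
    _ ≤ x * (1 + Real.log x) := by
        gcongr; exact Nat.floor_le hx0

lemma one_le_log {x : ℝ} (hx : 3 ≤ x) : 1 ≤ Real.log x := by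
  rw [Real.le_log_iff_exp_le (by linarith)]
  exact (Real.exp_one_lt_d9.le.trans (by norm_num)).trans hx

lemma exists_bound_range (A X0 : ℝ) : ∃ M : ℝ, 0 ≤ M ∧ ∀ x : ℝ, 2 ≤ x → x ≤ X0 →
    x * (1 + Real.log x) ≤ M * x / (Real.log x) ^ A := by
  have hcont : ContinuousOn (fun x : ℝ => (1 + Real.log x) * (Real.log x) ^ A) (Set.Icc 2 X0) := by
    intro x hx
    have hx0 : x ≠ 0 := by have := hx.1; intro h; rw [h] at this; linarith
    have hl : Real.log x ≠ 0 := (Real.log_pos (by linarith [hx.1])).ne'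
    have h1 : ContinuousAt Real.log x := Real.continuousAt_log hx0
    exact ((continuousAt_const.add h1).mul (h1.rpow_const (Or.inl hl))).continuousWithinAt
  obtain ⟨M, hM⟩ := isCompact_Icc.exists_bound_of_continuousOn hcont
  refine ⟨max M 0, le_max_right _ _, fun x hx hx1 => ?_⟩
  have hl : 0 < Real.log x := Real.log_pos (by linarith)
  have hp : 0 < (Real.log x) ^ A := Real.rpow_pos_of_pos hl _
  have h1 := hM x ⟨hx, hx1⟩
  rw [Real.norm_eq_abs] at h1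
  have h2 := (le_abs_self _).trans h1
  rw [le_div_iff₀ hp]
  calc x * (1 + Real.log x) * Real.log x ^ A = x * ((1 + Real.log x) * Real.log x ^ A) := by ring
    _ ≤ x * max M 0 := by
        have : (1 + Real.log x) * Real.log x ^ A ≤ max M 0 := h2.trans (le_max_left _ _)
        gcongr
    _ = max M 0 * x := by ring

/-- it suffices to prove savings for large `x` and exponents `≥ 1` -/
lemma sav_of_large {P : ∀ q : ℕ, DirichletCharacter ℂ q → Prop} {f : ℕ → ℂ}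
    (hf : ∀ n : ℕ, 1 ≤ n → ‖f n‖ ≤ 1 + Real.log n)
    (h : ∀ A B : ℝ, 1 ≤ A → 1 ≤ B → ∃ C X0 : ℝ, ∀ x : ℝ, X0 ≤ x → 3 ≤ x → ∀ q : ℕ, 1 ≤ q →
      (q : ℝ) ≤ (Real.log x) ^ B → ∀ χ : DirichletCharacter ℂ q, P q χ →
        ‖∑ n ∈ Finset.Icc 1 ⌊x⌋₊, f n * χ n‖ ≤ C * x / (Real.log x) ^ A) : Sav P f := by
  intro A B
  obtain ⟨C, X0, hC⟩ := h (max A 1) (max B 1) (le_max_right _ _) (le_max_right _ _)
  obtain ⟨M, hM0, hM⟩ := exists_bound_range A (max X0 3)
  refine ⟨max |C| M, fun x hx q hq hqB χ hχ => ?_⟩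
  have hx0 : 0 < x := by linarith
  have hl : 0 < Real.log x := Real.log_pos (by linarith)
  have hp : 0 < (Real.log x) ^ A := Real.rpow_pos_of_pos hl _
  rcases le_total x (max X0 3) with hle | hge
  · refine (norm_char_sum_trivial hf χ (by linarith)).trans ((hM x hx hle).trans ?_)
    gcongr
    exact le_max_right _ _
  · have hx3 : 3 ≤ x := (le_max_right _ _).trans hge
    have hl1 := one_le_log hx3
    have h1 : (q : ℝ) ≤ (Real.log x) ^ (max B 1) :=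
      hqB.trans (Real.rpow_le_rpow_of_exponent_le hl1 (le_max_left _ _))
    refine (hC x ((le_max_left _ _).trans hge) hx3 q hq h1 χ hχ).trans ?_
    have h2 : (Real.log x) ^ A ≤ (Real.log x) ^ (max A 1) :=
      Real.rpow_le_rpow_of_exponent_le hl1 (le_max_left _ _)
    calc C * x / Real.log x ^ max A 1 ≤ |C| * x / Real.log x ^ max A 1 := by
          gcongr; exact le_abs_self _
      _ ≤ |C| * x / Real.log x ^ A := by gcongr
      _ ≤ max |C| M * x / Real.log x ^ A := by gcongr; exact le_max_left _ _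

/-- multiples of `k` -/
lemma sum_multiples {M : Type*} [AddCommMonoid M] (N k : ℕ) (hk : 1 ≤ k) (g : ℕ → M) :
    ∑ n ∈ (Icc 1 N).filter (fun n => k ∣ n), g (n / k) = ∑ m ∈ Icc 1 (N / k), g m := by
  refine Finset.sum_nbij' (fun n => n / k) (fun m => k * m) ?_ ?_ ?_ ?_ ?_
  · intro n hn
    rw [mem_filter, mem_Icc] at hn
    rw [mem_Icc]
    exact ⟨Nat.div_pos (Nat.le_of_dvd (by omega) hn.2) hk, Nat.div_le_div_right hn.1.2⟩
  · intro m hm
    rw [mem_Icc] at hm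
    rw [mem_filter, mem_Icc]
    refine ⟨⟨Nat.mul_pos hk hm.1, ?_⟩, dvd_mul_right _ _⟩
    calc k * m ≤ k * (N / k) := Nat.mul_le_mul_left k hm.2
      _ ≤ N := Nat.mul_div_le N k
  · intro n hn
    rw [mem_filter] at hn
    exact Nat.mul_div_cancel' hn.2
  · intro m _
    exact Nat.mul_div_cancel_left m hk
  · intro n _; rfl

/-- exchange of summation for the convolution with squares -/
lemma sum_sq_exchange {M : Type*} [AddCommMonoid M] (N : ℕ) (h : ℕ → ℕ → M) :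
    ∑ n ∈ Icc 1 N, ∑ d ∈ (Icc 1 N).filter (fun d => d ^ 2 ∣ n), h d (n / d ^ 2) =
      ∑ d ∈ Icc 1 N, ∑ m ∈ Icc 1 (N / d ^ 2), h d m := by
  have h1 : ∀ n ∈ Icc 1 N, ∑ d ∈ (Icc 1 N).filter (fun d => d ^ 2 ∣ n), h d (n / d ^ 2) =
      ∑ d ∈ Icc 1 N, if d ^ 2 ∣ n then h d (n / d ^ 2) else 0 := fun n _ => Finset.sum_filter _ _
  rw [Finset.sum_congr rfl h1, Finset.sum_comm]
  refine Finset.sum_congr rfl fun d hd => ?_
  rw [← Finset.sum_filter]
  exact sum_multiples N (d ^ 2) (Nat.one_le_pow _ _ (mem_Icc.mp hd).1) (h d)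

end Crest.Agent.SW
end

-- ▼ part SW/SqBound
section

/-!
# Convolution with squares preserves savings
-/

namespace Crest.Agent.SW

open Finset Crest.Agent.R001.SW

/-- `∑_{d ≤ N} d^{-3/2} ≤ 3` -/
lemma sum_rpow_three_half (N : ℕ) : ∑ d ∈ Icc 1 N, (d : ℝ) ^ (-(3 / 2) : ℝ) ≤ 3 := by
  have h0 : (0 : ℝ) < 1 / 2 := by norm_num
  have hsum := summable_rpow_aux h0
  have h1 : ∑ d ∈ Icc 1 N, (d : ℝ) ^ (-(3 / 2) : ℝ) =
      ∑ n ∈ Finset.range N, ((n + 1 : ℕ) : ℝ) ^ (-(1 / 2) - 1 : ℝ) := by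
    rw [Finset.range_eq_Ico, Finset.sum_Ico_add' (fun n : ℕ => ((n : ℕ) : ℝ) ^ (-(1 / 2) - 1 : ℝ)) 0 N 1]
    refine Finset.sum_congr ?_ fun n _ => by norm_num
    ext n; simp

  rw [h1]
  refine (hsum.sum_le_tsum _ (fun n _ => by positivity)).trans ((tsum_all_le h0).trans ?_)
  norm_num

lemma sum_inv_sq_le (N : ℕ) : ∑ d ∈ Icc 1 N, (1 : ℝ) / (d : ℝ) ^ 2 ≤ 3 := by
  refine le_trans (Finset.sum_le_sum fun d hd => ?_) (sum_rpow_three_half N)
  have hd1 : (1 : ℝ) ≤ d := by exact_mod_cast (mem_Icc.mp hd).1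
  rw [one_div, ← Real.rpow_natCast, ← Real.rpow_neg (by linarith)]
  exact Real.rpow_le_rpow_of_exponent_le hd1 (by norm_num)

/-- the abstract estimate for `∑_{d ≤ √x} S(x/d²)` -/
lemma sum_sq_bound {S : ℝ → ℝ} {x C A : ℝ} (hx : 1 < x) (hA : 0 ≤ A) (hC : 0 ≤ C)
    (htriv : ∀ y : ℝ, 0 < y → S y ≤ y)
    (hS : ∀ y : ℝ, Real.sqrt x ≤ y → y ≤ x → S y ≤ C * y / (Real.log y) ^ A) (N : ℕ) :
    ∑ d ∈ Icc 1 N, S (x / d ^ 2) ≤ 3 * C * 2 ^ A * x / (Real.log x) ^ A + 3 * x ^ (7 / 8 : ℝ) := by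
  have hx0 : 0 < x := by linarith
  have hl : 0 < Real.log x := Real.log_pos hx
  have hlA : 0 < (Real.log x) ^ A := Real.rpow_pos_of_pos hl _
  have hterm : ∀ d ∈ Icc 1 N, S (x / d ^ 2) ≤
      (C * 2 ^ A * x / (Real.log x) ^ A) * (1 / (d : ℝ) ^ 2) +
        x ^ (7 / 8 : ℝ) * (d : ℝ) ^ (-(3 / 2) : ℝ) := by
    intro d hd
    have hd1 : (1 : ℝ) ≤ d := by exact_mod_cast (mem_Icc.mp hd).1
    have hd0 : (0 : ℝ) < d := by linarith
    have hd2 : (0 : ℝ) < (d : ℝ) ^ 2 := by positivity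
    have hpos1 : 0 ≤ (C * 2 ^ A * x / (Real.log x) ^ A) * (1 / (d : ℝ) ^ 2) := by positivity
    have hpos2 : 0 ≤ x ^ (7 / 8 : ℝ) * (d : ℝ) ^ (-(3 / 2) : ℝ) := by positivity
    by_cases hcase : Real.sqrt x ≤ x / d ^ 2
    · have hyx : x / (d : ℝ) ^ 2 ≤ x := by
        rw [div_le_iff₀ hd2]
        nlinarith [mul_le_mul hd1 hd1 (by norm_num) hd0.le]
      have h1 := hS _ hcase hyx
      have h2 : Real.log x / 2 ≤ Real.log (x / d ^ 2) := by
        rw [← Real.log_sqrt hx0.le]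
        exact Real.log_le_log (Real.sqrt_pos.mpr hx0) hcase
      have h3 : (Real.log x / 2) ^ A ≤ (Real.log (x / d ^ 2)) ^ A :=
        Real.rpow_le_rpow (by positivity) h2 hA
      have h4 : (Real.log x / 2) ^ A = (Real.log x) ^ A / 2 ^ A :=
        Real.div_rpow hl.le (by norm_num) A
      rw [h4] at h3
      have h2A : (0 : ℝ) < 2 ^ A := by positivity
      calc S (x / d ^ 2) ≤ C * (x / d ^ 2) / (Real.log (x / d ^ 2)) ^ A := h1
        _ ≤ C * (x / d ^ 2) / ((Real.log x) ^ A / 2 ^ A) := by gcongr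
        _ = (C * 2 ^ A * x / (Real.log x) ^ A) * (1 / (d : ℝ) ^ 2) := by field_simp
        _ ≤ _ := by linarith
    · push Not at hcase
      have h1 := htriv (x / d ^ 2) (by positivity)
      -- x / d^2 < sqrt x means sqrt x < d^2
      have h2 : Real.sqrt x < (d : ℝ) ^ 2 := by
        rw [div_lt_iff₀ hd2] at hcase
        have hs : Real.sqrt x * Real.sqrt x = x := Real.mul_self_sqrt hx0.le
        have hspos : 0 < Real.sqrt x := Real.sqrt_pos.mpr hx0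
        nlinarith
      have h3 : x ^ (1 / 8 : ℝ) ≤ (d : ℝ) ^ (1 / 2 : ℝ) := by
        have h4 : x ^ (1 / 8 : ℝ) = (Real.sqrt x) ^ (1 / 4 : ℝ) := by
          rw [Real.sqrt_eq_rpow, ← Real.rpow_mul hx0.le]; norm_num
        have h5 : (d : ℝ) ^ (1 / 2 : ℝ) = ((d : ℝ) ^ 2) ^ (1 / 4 : ℝ) := by
          rw [← Real.rpow_natCast, ← Real.rpow_mul hd0.le]; norm_num
        rw [h4, h5]
        exact Real.rpow_le_rpow (Real.sqrt_nonneg _) h2.le (by norm_num)
      have h6 : x / (d : ℝ) ^ 2 = x ^ (7 / 8 : ℝ) * x ^ (1 / 8 : ℝ) / (d : ℝ) ^ 2 := by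
        rw [← Real.rpow_add hx0]; norm_num
      have h7 : (d : ℝ) ^ (1 / 2 : ℝ) / (d : ℝ) ^ 2 = (d : ℝ) ^ (-(3 / 2) : ℝ) := by
        rw [← Real.rpow_natCast (d : ℝ) 2, ← Real.rpow_sub hd0]; norm_num
      calc S (x / d ^ 2) ≤ x / (d : ℝ) ^ 2 := h1
        _ = x ^ (7 / 8 : ℝ) * x ^ (1 / 8 : ℝ) / (d : ℝ) ^ 2 := h6
        _ ≤ x ^ (7 / 8 : ℝ) * (d : ℝ) ^ (1 / 2 : ℝ) / (d : ℝ) ^ 2 := by gcongr
        _ = x ^ (7 / 8 : ℝ) * (d : ℝ) ^ (-(3 / 2) : ℝ) := by rw [← h7]; ring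
        _ ≤ _ := by linarith
  calc ∑ d ∈ Icc 1 N, S (x / d ^ 2) ≤ ∑ d ∈ Icc 1 N,
        ((C * 2 ^ A * x / (Real.log x) ^ A) * (1 / (d : ℝ) ^ 2) +
        x ^ (7 / 8 : ℝ) * (d : ℝ) ^ (-(3 / 2) : ℝ)) := Finset.sum_le_sum hterm
    _ = (C * 2 ^ A * x / (Real.log x) ^ A) * ∑ d ∈ Icc 1 N, (1 / (d : ℝ) ^ 2) +
        x ^ (7 / 8 : ℝ) * ∑ d ∈ Icc 1 N, (d : ℝ) ^ (-(3 / 2) : ℝ) := by
        rw [Finset.sum_add_distrib, Finset.mul_sum, Finset.mul_sum]
    _ ≤ (C * 2 ^ A * x / (Real.log x) ^ A) * 3 + x ^ (7 / 8 : ℝ) * 3 := by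
        gcongr
        · exact sum_inv_sq_le N
        · exact sum_rpow_three_half N
    _ = _ := by ring

/-- `x^{7/8} ≤ M x/(log x)^A` -/
lemma rpow_seven_eighth_le (A : ℝ) (hA : 0 ≤ A) : ∃ M : ℝ, 0 ≤ M ∧ ∀ x : ℝ, 3 ≤ x →
    x ^ (7 / 8 : ℝ) ≤ M * x / (Real.log x) ^ A := by
  refine ⟨(8 * (A + 1)) ^ A, by positivity, fun x hx => ?_⟩
  have hx0 : 0 < x := by linarith
  have hl1 := one_le_log hx
  have hA1 : 0 < A + 1 := by linarith
  have hpos : 0 < (Real.log x) ^ A := by positivity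
  rw [le_div_iff₀ hpos]
  have h1 : Real.log x ≤ x ^ (1 / (8 * (A + 1))) * (8 * (A + 1)) := by
    have := Real.log_le_rpow_div hx0.le (ε := 1 / (8 * (A + 1))) (by positivity)
    calc Real.log x ≤ _ := this
      _ = _ := by field_simp
  have h2 : (Real.log x) ^ A ≤ x ^ (1 / 8 : ℝ) * (8 * (A + 1)) ^ A := by
    calc (Real.log x) ^ A ≤ (x ^ (1 / (8 * (A + 1))) * (8 * (A + 1))) ^ A :=
          Real.rpow_le_rpow (by linarith) h1 hA
      _ = x ^ (1 / (8 * (A + 1)) * A) * (8 * (A + 1)) ^ A := by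
          rw [Real.mul_rpow (by positivity) (by positivity), ← Real.rpow_mul hx0.le]
      _ ≤ x ^ (1 / 8 : ℝ) * (8 * (A + 1)) ^ A := by
          gcongr
          · linarith
          · rw [div_mul_eq_mul_div, one_mul, div_le_div_iff₀ (by positivity) (by norm_num)]
            nlinarith
  calc x ^ (7 / 8 : ℝ) * (Real.log x) ^ A ≤ x ^ (7 / 8 : ℝ) * (x ^ (1 / 8 : ℝ) * (8 * (A + 1)) ^ A) := by
        gcongr
    _ = (x ^ (7 / 8 : ℝ) * x ^ (1 / 8 : ℝ)) * (8 * (A + 1)) ^ A := by ring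
    _ = x * (8 * (A + 1)) ^ A := by rw [← Real.rpow_add hx0]; norm_num
    _ = _ := by ring

/-- for large `x` and `y ≥ √x`: `(log x)^B ≤ (log y)^(B+1)` -/
lemma exists_large_log (B : ℝ) (hB : 0 ≤ B) : ∃ X0 : ℝ, 3 ≤ X0 ∧ ∀ x : ℝ, X0 ≤ x → ∀ y : ℝ,
    Real.sqrt x ≤ y → (Real.log x) ^ B ≤ (Real.log y) ^ (B + 1) ∧ 2 ≤ y ∧ 1 ≤ Real.log y := by
  refine ⟨max 9 (Real.exp (2 * 2 ^ B)), le_max_of_le_left (by norm_num), fun x hx y hy => ?_⟩
  have hx9 : 9 ≤ x := (le_max_left _ _).trans hx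
  have hx0 : 0 < x := by linarith
  have hs3 : 3 ≤ Real.sqrt x := by
    rw [show (3 : ℝ) = Real.sqrt 9 by
      rw [show (9 : ℝ) = 3 ^ 2 by norm_num, Real.sqrt_sq (by norm_num)]]
    exact Real.sqrt_le_sqrt hx9
  have hy3 : 3 ≤ y := hs3.trans hy
  have hly1 := one_le_log hy3
  have hlx : Real.log x / 2 ≤ Real.log y := by
    rw [← Real.log_sqrt hx0.le]
    exact Real.log_le_log (by linarith) hy
  have hlx2 : 2 * 2 ^ B ≤ Real.log x := by
    rw [Real.le_log_iff_exp_le hx0]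
    exact (le_max_right _ _).trans hx
  refine ⟨?_, by linarith, hly1⟩
  have hlx0 : 0 ≤ Real.log x := by
    have : (0 : ℝ) < 2 ^ B := by positivity
    linarith
  calc (Real.log x) ^ B ≤ (2 * Real.log y) ^ B := Real.rpow_le_rpow hlx0 (by linarith) hB
    _ = 2 ^ B * (Real.log y) ^ B := Real.mul_rpow (by norm_num) (by linarith)
    _ ≤ Real.log y * (Real.log y) ^ B := by gcongr; linarith
    _ = (Real.log y) ^ (B + 1) := by rw [Real.rpow_add_one (by linarith)]; ring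

/-- **convolution with squares preserves savings** -/
theorem sav_sq {P : ∀ q : ℕ, DirichletCharacter ℂ q → Prop} {f g c : ℕ → ℂ}
    (hf : ∀ n, ‖f n‖ ≤ 1) (hg : ∀ n, ‖g n‖ ≤ 1) (hc : ∀ n, ‖c n‖ ≤ 1)
    (hfg : ∀ n N : ℕ, n ≠ 0 → n ≤ N →
      g n = ∑ d ∈ (Icc 1 N).filter (fun d => d ^ 2 ∣ n), c d * f (n / d ^ 2))
    (h : Sav P f) : Sav P g := by
  refine sav_of_large (fun n hn => (hg n).trans (by
    have := Real.log_natCast_nonneg n; linarith)) fun A B hA hB => ?_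
  obtain ⟨C, hC⟩ := h A (B + 1)
  obtain ⟨M, hM0, hM⟩ := rpow_seven_eighth_le A (by linarith)
  obtain ⟨X0, hX3, hX0⟩ := exists_large_log B (by linarith)
  refine ⟨3 * |C| * 2 ^ A + 3 * M, X0, fun x hx hx3 q hq hqB χ hχ => ?_⟩
  have hx0 : 0 < x := by linarith
  have hl1 := one_le_log hx3
  set S : ℝ → ℝ := fun y => ‖∑ m ∈ Icc 1 ⌊y⌋₊, f m * χ m‖ with hS
  -- identity
  have hid : ∑ n ∈ Icc 1 ⌊x⌋₊, g n * χ n =
      ∑ d ∈ Icc 1 ⌊x⌋₊, (c d * χ d ^ 2) * ∑ m ∈ Icc 1 (⌊x⌋₊ / d ^ 2), f m * χ m := by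
    have h1 : ∀ n ∈ Icc 1 ⌊x⌋₊, g n * χ n =
        ∑ d ∈ (Icc 1 ⌊x⌋₊).filter (fun d => d ^ 2 ∣ n),
          (c d * χ d ^ 2) * (f (n / d ^ 2) * χ ((n / d ^ 2 : ℕ) : ZMod q)) := by
      intro n hn
      rw [mem_Icc] at hn
      rw [hfg n ⌊x⌋₊ (by omega) hn.2, Finset.sum_mul]
      refine Finset.sum_congr rfl fun d hd => ?_
      obtain ⟨e, he⟩ := (mem_filter.mp hd).2
      have hd1 := (mem_Icc.mp (mem_filter.mp hd).1).1
      have hd2 : 0 < d ^ 2 := by positivity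
      rw [he, Nat.mul_div_cancel_left _ hd2]
      push_cast
      rw [map_mul, map_pow]
      ring
    rw [Finset.sum_congr rfl h1, sum_sq_exchange ⌊x⌋₊
      (fun d m => (c d * χ d ^ 2) * (f m * χ (m : ZMod q)))]
    refine Finset.sum_congr rfl fun d _ => ?_
    rw [Finset.mul_sum]
  rw [hid]
  have hb : ‖∑ d ∈ Icc 1 ⌊x⌋₊, (c d * χ d ^ 2) * ∑ m ∈ Icc 1 (⌊x⌋₊ / d ^ 2), f m * χ m‖ ≤
      ∑ d ∈ Icc 1 ⌊x⌋₊, S (x / d ^ 2) := by
    refine (norm_sum_le _ _).trans (Finset.sum_le_sum fun d _ => ?_)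
    rw [norm_mul, norm_mul, norm_pow]
    have h1 : ‖χ d‖ ≤ 1 := χ.norm_le_one _
    have h2 : ⌊x⌋₊ / d ^ 2 = ⌊x / (d : ℝ) ^ 2⌋₊ := by
      have := Nat.floor_div_natCast x (d ^ 2)
      push_cast at this
      exact this.symm
    rw [h2]
    have h3 : 0 ≤ S (x / d ^ 2) := norm_nonneg _
    calc ‖c d‖ * ‖χ d‖ ^ 2 * S (x / d ^ 2) ≤ 1 * 1 ^ 2 * S (x / d ^ 2) := by
          gcongr; exact hc d
      _ = _ := by ring
  refine hb.trans ?_
  have key := sum_sq_bound (S := S) (x := x) (C := |C|) (A := A) (by linarith) (by linarith)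
    (abs_nonneg C) (fun y hy => ?_) (fun y hy hyx => ?_) ⌊x⌋₊
  · refine key.trans ?_
    have h7 := hM x hx3
    calc 3 * |C| * 2 ^ A * x / Real.log x ^ A + 3 * x ^ (7 / 8 : ℝ)
        ≤ 3 * |C| * 2 ^ A * x / Real.log x ^ A + 3 * (M * x / (Real.log x) ^ A) := by gcongr
      _ = _ := by ring
  · -- trivial bound
    calc S y ≤ ∑ m ∈ Icc 1 ⌊y⌋₊, ‖f m * χ m‖ := norm_sum_le _ _
      _ ≤ ∑ m ∈ Icc 1 ⌊y⌋₊, (1 : ℝ) := by
          refine Finset.sum_le_sum fun m _ => ?_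
          rw [norm_mul]
          have h1 : ‖χ m‖ ≤ 1 := χ.norm_le_one _
          calc ‖f m‖ * ‖χ m‖ ≤ 1 * 1 := by gcongr; exact hf m
            _ = 1 := one_mul 1
      _ = ⌊y⌋₊ := by simp
      _ ≤ y := Nat.floor_le hy.le
  · obtain ⟨g1, g2, g3⟩ := hX0 x hx y hy
    refine (hC y g2 q hq (hqB.trans g1) χ hχ).trans ?_
    have : 0 < Real.log y := by linarith
    gcongr
    exact le_abs_self C

end Crest.Agent.SW
end

-- ▼ part SW/ZetaBd
section

/-!
# Upper bounds for the Riemann zeta function near `Re s = 1`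

`zeta1_upper`: `‖ζ₁ s‖ ≤ C_η (‖s-1‖+1) (|Im s|+2)^η` for `1-η ≤ Re s ≤ 3`.
`zeta_upper`: `‖ζ s‖ ≤ C_η (|Im s|+2)^η` for `1-η ≤ Re s ≤ 3`, `|Im s| ≥ 1/2`.
-/

namespace Crest.Agent.SW.ZS

open Complex Finset Crest.Agent.R001.SW

/-- the height -/
noncomputable def ht (s : ℂ) : ℝ := |s.im| + 2

lemma two_le_ht (s : ℂ) : 2 ≤ ht s := by unfold ht; linarith [abs_nonneg s.im]

lemma ht_pos (s : ℂ) : 0 < ht s := by linarith [two_le_ht s]

lemma one_le_ht_rpow (s : ℂ) {η : ℝ} (hη : 0 ≤ η) : 1 ≤ ht s ^ η :=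
  Real.one_le_rpow (by linarith [two_le_ht s]) hη

lemma ht_le_of_dist {s w : ℂ} {r : ℝ} (h : ‖w - s‖ ≤ r) (hr : r ≤ 1) : ht w ≤ 2 * ht s := by
  have h1 : |(w - s).im| ≤ ‖w - s‖ := Complex.abs_im_le_norm _
  have h2 : |w.im| ≤ |s.im| + |(w - s).im| := by
    have : w.im = s.im + (w - s).im := by simp
    calc |w.im| = |s.im + (w - s).im| := by rw [← this]
      _ ≤ _ := abs_add_le _ _
  unfold ht
  have := abs_nonneg s.im
  linarith

lemma zeta1_upper {η : ℝ} (hη : 0 < η) (hη1 : η ≤ 1 / 2) :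
    ∃ C : ℝ, 1 ≤ C ∧ ∀ s : ℂ, 1 - η ≤ s.re → s.re ≤ 3 →
      ‖riemannZeta₁ s‖ ≤ C * (‖s - 1‖ + 1) * ht s ^ η := by
  refine ⟨3 / η + 9, by have : 0 < 3 / η := by positivity
                        linarith, fun s h1 h3 => ?_⟩
  set T := ht s with hT
  have hT2 : 2 ≤ T := two_le_ht s
  have hT0 : 0 < T := by linarith
  set N := ⌈T⌉₊ with hN
  have hNT : T ≤ N := Nat.le_ceil T
  have hN1 : 1 ≤ N := by
    have : (1 : ℝ) ≤ N := by linarith
    exact_mod_cast this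
  have hN2 : (N : ℝ) < T + 1 := Nat.ceil_lt_add_one hT0.le
  have hN3 : ((N + 1 : ℕ) : ℝ) ≤ 3 * T := by push_cast; linarith
  have hσ : 0 < s.re := by linarith
  have hTη : 1 ≤ T ^ η := one_le_ht_rpow s hη.le
  have h3η : (3 : ℝ) ^ η ≤ 3 := by
    calc (3 : ℝ) ^ η ≤ 3 ^ (1 : ℝ) := Real.rpow_le_rpow_of_exponent_le (by norm_num) (by linarith)
      _ = 3 := Real.rpow_one 3
  have hA : ∑ n ∈ Icc 1 (N + 1), (n : ℝ) ^ (-s.re) ≤ 3 / η * T ^ η := by
    calc ∑ n ∈ Icc 1 (N + 1), (n : ℝ) ^ (-s.re)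
        ≤ ∑ n ∈ Icc 1 (N + 1), (n : ℝ) ^ (η - 1) := by
          refine Finset.sum_le_sum fun n hn => ?_
          have hn1 := (mem_Icc.mp hn).1
          exact Real.rpow_le_rpow_of_exponent_le (by exact_mod_cast hn1) (by linarith)
      _ ≤ ((N + 1 : ℕ) : ℝ) ^ η / η := sum_Icc_rpow_le hη (by linarith) _
      _ ≤ (3 * T) ^ η / η := by gcongr
      _ = 3 ^ η * T ^ η / η := by rw [Real.mul_rpow (by norm_num) hT0.le]
      _ ≤ 3 * T ^ η / η := by gcongr
      _ = 3 / η * T ^ η := by ring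
  have hB : ((N + 1 : ℕ) : ℝ) ^ (1 - s.re) ≤ 3 * T ^ η := by
    calc ((N + 1 : ℕ) : ℝ) ^ (1 - s.re) ≤ ((N + 1 : ℕ) : ℝ) ^ η :=
          Real.rpow_le_rpow_of_exponent_le (by exact_mod_cast Nat.succ_le_succ (Nat.zero_le N))
            (by linarith)
      _ ≤ (3 * T) ^ η := by gcongr
      _ = 3 ^ η * T ^ η := by rw [Real.mul_rpow (by norm_num) hT0.le]
      _ ≤ 3 * T ^ η := by gcongr
  have hs : ‖s‖ ≤ 3 * T := by
    have := Complex.norm_le_abs_re_add_abs_im s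
    have h0 : |s.re| ≤ 3 := abs_le.mpr ⟨by linarith, h3⟩
    rw [hT]; unfold ht; linarith [abs_nonneg s.im]
  have hD : ‖s‖ * ((N : ℝ) ^ (-s.re) / s.re) ≤ 6 * T ^ η := by
    have h1' : (N : ℝ) ^ (-s.re) ≤ T ^ (η - 1) := by
      calc (N : ℝ) ^ (-s.re) ≤ (N : ℝ) ^ (η - 1) :=
            Real.rpow_le_rpow_of_exponent_le (by exact_mod_cast hN1) (by linarith)
        _ ≤ T ^ (η - 1) := Real.rpow_le_rpow_of_nonpos hT0 hNT (by linarith)
    have h2' : T * T ^ (η - 1) = T ^ η := by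
      rw [Real.rpow_sub_one hT0.ne']; field_simp
    calc ‖s‖ * ((N : ℝ) ^ (-s.re) / s.re) ≤ (3 * T) * (T ^ (η - 1) / (1 / 2)) := by
          gcongr; linarith
      _ = 6 * (T * T ^ (η - 1)) := by ring
      _ = 6 * T ^ η := by rw [h2']
  have := norm_zeta1_le_trunc hσ hN1
  have hs1 : 0 ≤ ‖s - 1‖ := norm_nonneg _
  calc ‖riemannZeta₁ s‖ ≤ _ := this
    _ = ‖s - 1‖ * ∑ n ∈ Icc 1 (N + 1), (n : ℝ) ^ (-s.re) + ((N + 1 : ℕ) : ℝ) ^ (1 - s.re) +
        ‖s - 1‖ * (‖s‖ * ((N : ℝ) ^ (-s.re) / s.re)) := by ring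
    _ ≤ ‖s - 1‖ * (3 / η * T ^ η) + 3 * T ^ η + ‖s - 1‖ * (6 * T ^ η) := by gcongr
    _ ≤ (3 / η + 9) * (‖s - 1‖ + 1) * T ^ η := by
        have h3 : 0 < 3 / η := by positivity
        have h4 : 0 < T ^ η := by linarith
        nlinarith [mul_nonneg hs1 h4.le, mul_nonneg h3.le h4.le]

lemma zeta_upper {η : ℝ} (hη : 0 < η) (hη1 : η ≤ 1 / 2) :
    ∃ C : ℝ, 1 ≤ C ∧ ∀ s : ℂ, 1 - η ≤ s.re → s.re ≤ 3 → 1 / 2 ≤ |s.im| →
      ‖riemannZeta s‖ ≤ C * ht s ^ η := by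
  obtain ⟨C, hC1, hC⟩ := zeta1_upper hη hη1
  refine ⟨3 * C, by linarith, fun s h1 h3 hi => ?_⟩
  have him : 1 / 2 ≤ ‖s - 1‖ := by
    have := Complex.abs_im_le_norm (s - 1)
    simp only [sub_im, one_im, sub_zero] at this
    linarith
  have hs1 : s ≠ 1 := by
    intro h; rw [h] at him; norm_num at him
  have hpos : 0 < ‖s - 1‖ := by linarith
  rw [riemannZeta_eq_inv_sub_mul hs1, norm_mul, norm_inv]
  have hh : 0 < ht s ^ η := by linarith [one_le_ht_rpow s hη.le]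
  calc ‖s - 1‖⁻¹ * ‖riemannZeta₁ s‖ ≤ ‖s - 1‖⁻¹ * (C * (‖s - 1‖ + 1) * ht s ^ η) := by
        gcongr; exact hC s h1 h3
    _ = C * ht s ^ η * ((‖s - 1‖ + 1) / ‖s - 1‖) := by field_simp
    _ ≤ C * ht s ^ η * 3 := by
        gcongr
        rw [div_le_iff₀ hpos]; linarith
    _ = 3 * C * ht s ^ η := by ring

end Crest.Agent.SW.ZS
end

-- ▼ part SW/ZetaInv
section

/-!
# Lower bounds for the Riemann zeta function near `Re s = 1`, derivatives of `1/ζ`

`zeta_lower` (3-4-1), `iteratedDeriv_inv_zeta`, `iteratedDeriv_logDeriv_zeta`: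
for all `k` and `δ > 0` the `k`-th derivatives of `1/ζ` and of `-ζ'/ζ - ζ` are
`≤ C (|Im s| + 2)^δ` on `1 < Re s ≤ 2`.
-/

namespace Crest.Agent.SW.ZS

open Complex Finset Crest.Agent.R001.SW

/-- Cauchy's estimate on a closed ball -/
lemma cauchy_k {f : ℂ → ℂ} {c : ℂ} {R C : ℝ} (k : ℕ) (hR : 0 < R)
    (hf : ∀ z : ℂ, ‖z - c‖ ≤ R → DifferentiableAt ℂ f z)
    (hC : ∀ z : ℂ, ‖z - c‖ ≤ R → ‖f z‖ ≤ C) :
    ‖iteratedDeriv k f c‖ ≤ k.factorial * C / R ^ k := by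
  refine Complex.norm_iteratedDeriv_le_of_forall_mem_sphere_norm_le k hR ?_ ?_
  · apply DifferentiableOn.diffContOnCl_ball (U := Metric.closedBall c R) _ (subset_refl _)
    intro z hz
    rw [Metric.mem_closedBall, dist_eq_norm] at hz
    exact (hf z hz).differentiableWithinAt
  · intro z hz
    rw [mem_sphere_iff_norm] at hz
    exact hC z hz.le

/-- derivatives of a holomorphic function are bounded on compact sets -/
lemma iteratedDeriv_bdd_compact {G : ℂ → ℂ} {U K : Set ℂ} (hU : IsOpen U)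
    (hG : DifferentiableOn ℂ G U) (hK : IsCompact K) (hKU : K ⊆ U) (k : ℕ) :
    ∃ C : ℝ, ∀ s ∈ K, ‖iteratedDeriv k G s‖ ≤ C := by
  have h1 : AnalyticOnNhd ℂ G U := hG.analyticOnNhd hU
  have h2 : AnalyticOnNhd ℂ (iteratedDeriv k G) U := by
    rw [iteratedDeriv_eq_iterate]
    exact h1.iterated_deriv k
  exact hK.exists_bound_of_continuousOn (h2.continuousOn.mono hKU)

lemma zeta_differentiableAt {s : ℂ} (h : s.im ≠ 0) : DifferentiableAt ℂ riemannZeta s :=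
  differentiableAt_riemannZeta (by rintro rfl; simp at h)

/-- bound for `ζ'` -/
lemma zeta_deriv_upper {η : ℝ} (hη : 0 < η) (hη1 : η ≤ 1 / 2) :
    ∃ C : ℝ, 1 ≤ C ∧ ∀ s : ℂ, 1 - η / 2 ≤ s.re → s.re ≤ 5 / 2 → 3 / 4 ≤ |s.im| →
      ‖deriv riemannZeta s‖ ≤ C * ht s ^ η := by
  obtain ⟨C, hC1, hC⟩ := zeta_upper hη hη1
  refine ⟨4 * C / η, ?_, fun s h1 h3 hi => ?_⟩
  · rw [le_div_iff₀ hη]; linarith
  have hR : 0 < η / 2 := by linarith
  have key := cauchy_k (f := riemannZeta) (c := s) (R := η / 2) (C := C * (2 * ht s) ^ η) 1 hR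
    (fun z hz => ?_) (fun z hz => ?_)
  · rw [iteratedDeriv_one, pow_one, Nat.factorial_one, Nat.cast_one, one_mul] at key
    refine key.trans ?_
    rw [Real.mul_rpow (by norm_num) (ht_pos s).le]
    have h2 : (2 : ℝ) ^ η ≤ 2 := by
      calc (2 : ℝ) ^ η ≤ 2 ^ (1 : ℝ) := Real.rpow_le_rpow_of_exponent_le (by norm_num) (by linarith)
        _ = 2 := Real.rpow_one 2
    have h4 : 0 ≤ ht s ^ η := (Real.rpow_pos_of_pos (ht_pos s) η).le
    rw [div_le_iff₀ hR]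
    calc C * (2 ^ η * ht s ^ η) ≤ C * (2 * ht s ^ η) := by gcongr
      _ = 4 * C / η * ht s ^ η * (η / 2) := by field_simp; ring
  · have h5 : |(z - s).im| ≤ ‖z - s‖ := Complex.abs_im_le_norm _
    have h6 : |s.im| ≤ |z.im| + |(z - s).im| := by
      have : s.im = z.im - (z - s).im := by simp
      calc |s.im| = |z.im - (z - s).im| := by rw [← this]
        _ ≤ _ := abs_sub _ _
    exact zeta_differentiableAt (by
      intro h; rw [h, abs_zero] at h6; linarith)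
  · have h5 : |(z - s).im| ≤ ‖z - s‖ := Complex.abs_im_le_norm _
    have h6 : |s.im| ≤ |z.im| + |(z - s).im| := by
      have : s.im = z.im - (z - s).im := by simp
      calc |s.im| = |z.im - (z - s).im| := by rw [← this]
        _ ≤ _ := abs_sub _ _
    have h7 : |(z - s).re| ≤ ‖z - s‖ := Complex.abs_re_le_norm _
    rw [Complex.sub_re] at h7
    have h8 := abs_le.mp (h7.trans hz)
    refine (hC z (by linarith) (by linarith) (by linarith)).trans ?_
    have := ht_le_of_dist hz (by linarith)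
    have h9 := (ht_pos z).le
    gcongr

/-- 3-4-1 for `ζ` -/
lemma zeta_341 {x : ℝ} (hx : 0 < x) (t : ℝ) :
    1 ≤ ‖riemannZeta (1 + x)‖ ^ 3 * ‖riemannZeta (1 + x + I * t)‖ ^ 4 *
      ‖riemannZeta (1 + x + 2 * I * t)‖ := by
  have := DirichletCharacter.norm_LFunction_product_ge_one (N := 1) 1 hx t
  simpa [DirichletCharacter.LFunctionTrivChar, DirichletCharacter.LFunction_modOne_eq, norm_mul,
    norm_pow] using this

lemma zeta_lower {η : ℝ} (hη : 0 < η) (hη1 : η ≤ 1 / 2) :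
    ∃ κ c : ℝ, 0 < κ ∧ κ ≤ η / 2 ∧ 0 < c ∧ ∀ s : ℂ, 1 - κ * ht s ^ (-(5 * η)) ≤ s.re →
      s.re ≤ 5 / 2 → 3 / 4 ≤ |s.im| → c * ht s ^ (-(4 * η)) ≤ ‖riemannZeta s‖ := by
  obtain ⟨C, hC1, hC⟩ := zeta_upper hη hη1
  obtain ⟨C1, hC11, hC1'⟩ := zeta1_upper hη hη1
  obtain ⟨D, hD1, hD⟩ := zeta_deriv_upper hη hη1
  -- constant of the 3-4-1 inequality
  set A : ℝ := (5 * C1) ^ 3 * (2 * C) with hA
  have hApos : 0 < A := by positivity
  have h2η : (2 : ℝ) ^ η ≤ 2 := by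
    calc (2 : ℝ) ^ η ≤ 2 ^ (1 : ℝ) := Real.rpow_le_rpow_of_exponent_le (by norm_num) (by linarith)
      _ = 2 := Real.rpow_one 2
  have h341 : ∀ s : ℂ, 1 < s.re → s.re ≤ 5 / 2 → 3 / 4 ≤ |s.im| →
      (s.re - 1) ^ 3 ≤ A * ht s ^ η * ‖riemannZeta s‖ ^ 4 := by
    intro s h1 h2 h3
    set x := s.re - 1 with hx
    have hx0 : 0 < x := by linarith
    have key := zeta_341 hx0 s.im
    have e1 : (1 + (x : ℂ) + I * s.im) = s := by
      apply Complex.ext <;> simp [hx]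
    rw [e1] at key
    have hb1 : ‖riemannZeta (1 + x)‖ ≤ 5 * C1 / x := by
      have hne : (1 + (x : ℂ)) ≠ 1 := by
        intro h
        have := congrArg Complex.re h
        simp at this; linarith
      rw [riemannZeta_eq_inv_sub_mul hne, norm_mul, norm_inv]
      have e2 : (1 + (x : ℂ) - 1) = (x : ℂ) := by ring
      have h4 := hC1' (1 + x) (by simp; linarith) (by simp; linarith)
      rw [e2] at h4 ⊢
      rw [Complex.norm_real, Real.norm_of_nonneg hx0.le] at *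
      have e3 : ht (1 + (x : ℂ)) = 2 := by simp [ht]
      rw [e3] at h4
      calc x⁻¹ * ‖riemannZeta₁ (1 + x)‖ ≤ x⁻¹ * (C1 * (x + 1) * 2 ^ η) := by gcongr
        _ ≤ x⁻¹ * (C1 * (5 / 2) * 2) := by gcongr; linarith
        _ = 5 * C1 / x := by ring
    have hb2 : ‖riemannZeta (1 + x + 2 * I * s.im)‖ ≤ 2 * C * ht s ^ η := by
      have him : (1 + (x : ℂ) + 2 * I * s.im).im = 2 * s.im := by simp
      have hre : (1 + (x : ℂ) + 2 * I * s.im).re = s.re := by simp [hx]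
      have h4 := hC (1 + x + 2 * I * s.im) (by rw [hre]; linarith) (by rw [hre]; linarith)
        (by rw [him, abs_mul, abs_two]; linarith)
      have h5 : ht (1 + (x : ℂ) + 2 * I * s.im) ≤ 2 * ht s := by
        unfold ht; rw [him, abs_mul, abs_two]; linarith
      have h5' := (ht_pos (1 + (x : ℂ) + 2 * I * s.im)).le
      refine h4.trans ?_
      calc C * ht (1 + (x : ℂ) + 2 * I * s.im) ^ η ≤ C * (2 * ht s) ^ η := by gcongr
        _ = C * (2 ^ η * ht s ^ η) := by rw [Real.mul_rpow (by norm_num) (ht_pos s).le]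
        _ ≤ C * (2 * ht s ^ η) := by
            have h4 : 0 ≤ ht s ^ η := (Real.rpow_pos_of_pos (ht_pos s) η).le
            gcongr
        _ = _ := by ring
    have h4 : 0 ≤ ht s ^ η := (Real.rpow_pos_of_pos (ht_pos s) η).le
    have hx3 : 0 < x ^ 3 := by positivity
    calc x ^ 3 = x ^ 3 * 1 := by ring
      _ ≤ x ^ 3 * (‖riemannZeta (1 + x)‖ ^ 3 * ‖riemannZeta s‖ ^ 4 *
          ‖riemannZeta (1 + x + 2 * I * s.im)‖) := by gcongr
      _ ≤ x ^ 3 * ((5 * C1 / x) ^ 3 * ‖riemannZeta s‖ ^ 4 * (2 * C * ht s ^ η)) := by gcongr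
      _ = A * ht s ^ η * ‖riemannZeta s‖ ^ 4 := by
          rw [hA]; field_simp
  -- choose κ
  set κ : ℝ := min (η / 2) (1 / (A * (4 * D) ^ 4)) with hκ
  have hκpos : 0 < κ := by positivity
  have hκη : κ ≤ η / 2 := min_le_left _ _
  have hκA : κ * (A * (4 * D) ^ 4) ≤ 1 := by
    have : κ ≤ 1 / (A * (4 * D) ^ 4) := min_le_right _ _
    rwa [le_div_iff₀ (by positivity)] at this
  refine ⟨κ, 2 * D * κ, hκpos, hκη, by positivity, fun s h1 h2 h3 => ?_⟩
  set T := ht s with hT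
  have hTpos : 0 < T := ht_pos s
  set k := κ * T ^ (-(5 * η)) with hk
  have hT5 : T ^ (-(5 * η)) ≤ 1 := Real.rpow_le_one_of_one_le_of_nonpos
    (by linarith [two_le_ht s]) (by linarith)
  have hkpos : 0 < k := by positivity
  have hkκ : k ≤ κ := by
    calc k ≤ κ * 1 := by rw [hk]; gcongr
      _ = κ := mul_one κ
  -- at points to the right of 1 + k
  have hright : ∀ w : ℂ, w.im = s.im → 1 + k ≤ w.re → w.re ≤ 5 / 2 →
      4 * D * k * T ^ η ≤ ‖riemannZeta w‖ := by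
    intro w hw h4 h5
    have hTw : ht w = T := by rw [hT]; unfold ht; rw [hw]
    have h6 := h341 w (by linarith) h5 (by rw [hw]; exact h3)
    rw [hTw] at h6
    have h7 : k ^ 3 ≤ (w.re - 1) ^ 3 := by
      have : k ≤ w.re - 1 := by linarith
      gcongr
    have hTη : 0 < T ^ η := Real.rpow_pos_of_pos hTpos η
    have h8 : (4 * D * k * T ^ η) ^ 4 ≤ ‖riemannZeta w‖ ^ 4 := by
      have h9 : k ^ 3 / (A * T ^ η) ≤ ‖riemannZeta w‖ ^ 4 := by
        rw [div_le_iff₀ (by positivity)]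
        linarith
      refine le_trans ?_ h9
      rw [le_div_iff₀ (by positivity)]
      have h10 : k * T ^ (5 * η) = κ := by
        rw [hk, mul_assoc, ← Real.rpow_add hTpos]; simp
      have h11 : T ^ (5 * η) = (T ^ η) ^ 5 := by
        rw [mul_comm, Real.rpow_mul hTpos.le]
        norm_cast
      calc (4 * D * k * T ^ η) ^ 4 * (A * T ^ η) = k ^ 3 * ((k * (T ^ η) ^ 5) * (A * (4 * D) ^ 4)) := by
            ring
        _ = k ^ 3 * (κ * (A * (4 * D) ^ 4)) := by rw [← h11, h10]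
        _ ≤ k ^ 3 * 1 := by gcongr
        _ = k ^ 3 := mul_one _
    exact (pow_le_pow_iff_left₀ (by positivity) (norm_nonneg _) (by norm_num)).mp h8
  have hfin : 2 * D * κ * T ^ (-(4 * η)) = 2 * D * k * T ^ η := by
    rw [hk]
    have : T ^ (-(4 * η)) = T ^ (-(5 * η)) * T ^ η := by
      rw [← Real.rpow_add hTpos]; congr 1; ring
    rw [this]; ring
  rw [hfin]
  have hTη : 0 < T ^ η := Real.rpow_pos_of_pos hTpos η
  by_cases hcase : 1 + k ≤ s.re
  · have := hright s rfl hcase h2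
    have h5 : 0 < D * k * T ^ η := by positivity
    linarith
  · push Not at hcase
    set w : ℂ := ⟨1 + k, s.im⟩ with hw
    have hwb := hright w rfl le_rfl (by show 1 + k ≤ 5 / 2; linarith)
    -- mean value inequality on the horizontal segment
    set S : Set ℂ := {z : ℂ | z.im = s.im ∧ 1 - η / 2 ≤ z.re ∧ z.re ≤ 5 / 2} with hS
    have hconv : Convex ℝ S := by
      have e : S = (Complex.imLm ⁻¹' {s.im}) ∩ (Complex.reLm ⁻¹' (Set.Icc (1 - η / 2) (5 / 2))) := by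
        ext z; simp [hS, Complex.imLm, Complex.reLm]
      rw [e]
      exact ((convex_singleton _).linear_preimage _).inter ((convex_Icc _ _).linear_preimage _)
    have hmv := hconv.norm_image_sub_le_of_norm_deriv_le (f := riemannZeta) (C := D * T ^ η)
      (x := w) (y := s) (fun z hz => by
        refine zeta_differentiableAt ?_
        rw [hz.1]; intro h; rw [h, abs_zero] at h3; linarith)
      (fun z hz => by
        have h9 := hD z hz.2.1 hz.2.2 (by rw [hz.1]; exact h3)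
        have : ht z = T := by rw [hT]; unfold ht; rw [hz.1]
        rwa [this] at h9)
      ⟨rfl, by show 1 - η / 2 ≤ 1 + k; linarith, by show 1 + k ≤ 5 / 2; linarith⟩
      ⟨rfl, by linarith, h2⟩
    have hsw : ‖s - w‖ ≤ 2 * k := by
      have e : s - w = ((s.re - (1 + k) : ℝ) : ℂ) := by
        apply Complex.ext <;> simp [hw]
      rw [e, Complex.norm_real, Real.norm_eq_abs, abs_le]
      constructor <;> linarith
    have h9 : ‖riemannZeta w‖ ≤ ‖riemannZeta s‖ + ‖riemannZeta s - riemannZeta w‖ := by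
      have : riemannZeta w = riemannZeta s - (riemannZeta s - riemannZeta w) := by ring
      calc ‖riemannZeta w‖ = ‖riemannZeta s - (riemannZeta s - riemannZeta w)‖ := by rw [← this]
        _ ≤ _ := norm_sub_le _ _
    have h10 : ‖riemannZeta s - riemannZeta w‖ ≤ D * T ^ η * (2 * k) :=
      hmv.trans (by gcongr)
    linarith

end Crest.Agent.SW.ZS
end

-- ▼ part SW/ZetaDer
section

/-!
# Derivatives of `1/ζ` and of `-ζ'/ζ - ζ` on `1 < Re s ≤ 2`
-/

namespace Crest.Agent.SW.ZS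

open Complex Finset Crest.Agent.R001.SW

lemma rpow_le_eight {T η : ℝ} (hT : 0 < T) (hη : 0 < η) (hη1 : η ≤ 1 / 2) :
    T ^ (-(5 * η)) / 8 ≤ (2 * T) ^ (-(5 * η)) := by
  rw [Real.mul_rpow (by norm_num) hT.le]
  have h2 : (1 / 8 : ℝ) ≤ 2 ^ (-(5 * η)) := by
    calc (1 / 8 : ℝ) = 2 ^ (-3 : ℝ) := by norm_num [Real.rpow_neg]
      _ ≤ 2 ^ (-(5 * η)) := Real.rpow_le_rpow_of_exponent_le (by norm_num) (by linarith)
  have h3 : 0 ≤ T ^ (-(5 * η)) := (Real.rpow_pos_of_pos hT _).le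
  nlinarith [mul_le_mul_of_nonneg_right h2 h3]

/-- Cauchy's estimate for functions with growth `T^(5η)` in the region where `ζ` is bounded
below -/
lemma cauchy_region {η κ : ℝ} (hη : 0 < η) (hη1 : η ≤ 1 / 2) (hκ : 0 < κ) (hκ1 : κ ≤ η / 2)
    {F : ℂ → ℂ} {C : ℝ} (hC0 : 0 ≤ C)
    (hd : ∀ z : ℂ, 1 - κ * ht z ^ (-(5 * η)) ≤ z.re → z.re ≤ 5 / 2 → 3 / 4 ≤ |z.im| →
      DifferentiableAt ℂ F z)
    (hF : ∀ z : ℂ, 1 - κ * ht z ^ (-(5 * η)) ≤ z.re → z.re ≤ 5 / 2 → 3 / 4 ≤ |z.im| →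
      ‖F z‖ ≤ C * ht z ^ (5 * η)) (k : ℕ) :
    ∀ s : ℂ, 1 ≤ s.re → s.re ≤ 2 → 1 ≤ |s.im| →
      ‖iteratedDeriv k F s‖ ≤ (k.factorial * (8 * C) * (8 / κ) ^ k) *
        ht s ^ ((5 * (k + 1)) * η) := by
  intro s h1 h2 h3
  set T := ht s with hT
  have hTpos : 0 < T := ht_pos s
  have hT5 : T ^ (-(5 * η)) ≤ 1 := Real.rpow_le_one_of_one_le_of_nonpos
    (by linarith [two_le_ht s]) (by linarith)
  have hT5pos : 0 < T ^ (-(5 * η)) := Real.rpow_pos_of_pos hTpos _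
  set r := κ / 8 * T ^ (-(5 * η)) with hr
  have hrpos : 0 < r := by positivity
  have hr1 : r ≤ 1 / 32 := by
    calc r ≤ κ / 8 * 1 := by rw [hr]; gcongr
      _ ≤ 1 / 32 := by linarith
  have hreg : ∀ z : ℂ, ‖z - s‖ ≤ r → 1 - κ * ht z ^ (-(5 * η)) ≤ z.re ∧ z.re ≤ 5 / 2 ∧
      3 / 4 ≤ |z.im| ∧ ht z ≤ 2 * T := by
    intro z hz
    have h5 : |(z - s).im| ≤ ‖z - s‖ := Complex.abs_im_le_norm _
    have h6 : |s.im| ≤ |z.im| + |(z - s).im| := by
      have : s.im = z.im - (z - s).im := by simp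
      calc |s.im| = |z.im - (z - s).im| := by rw [← this]
        _ ≤ _ := abs_sub _ _
    have h7 : |(z - s).re| ≤ ‖z - s‖ := Complex.abs_re_le_norm _
    rw [Complex.sub_re] at h7
    have h8 := abs_le.mp (h7.trans hz)
    have h9 : ht z ≤ 2 * T := ht_le_of_dist hz (by linarith)
    have h10 : (2 * T) ^ (-(5 * η)) ≤ ht z ^ (-(5 * η)) :=
      Real.rpow_le_rpow_of_nonpos (ht_pos z) h9 (by linarith)
    have h11 := rpow_le_eight hTpos hη hη1
    have h12 : r ≤ κ * ht z ^ (-(5 * η)) := by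
      calc r = κ * (T ^ (-(5 * η)) / 8) := by rw [hr]; ring
        _ ≤ κ * ht z ^ (-(5 * η)) := by gcongr; linarith
    exact ⟨by linarith, by linarith, by linarith, h9⟩
  have key := cauchy_k (f := F) (c := s) (R := r) (C := C * (8 * T ^ (5 * η))) k hrpos
    (fun z hz => hd z (hreg z hz).1 (hreg z hz).2.1 (hreg z hz).2.2.1) (fun z hz => by
      obtain ⟨g1, g2, g3, g4⟩ := hreg z hz
      refine (hF z g1 g2 g3).trans ?_
      have h8 : ht z ^ (5 * η) ≤ 8 * T ^ (5 * η) := by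
        calc ht z ^ (5 * η) ≤ (2 * T) ^ (5 * η) :=
              Real.rpow_le_rpow (ht_pos z).le g4 (by linarith)
          _ = 2 ^ (5 * η) * T ^ (5 * η) := Real.mul_rpow (by norm_num) hTpos.le
          _ ≤ 8 * T ^ (5 * η) := by
              have : (2 : ℝ) ^ (5 * η) ≤ 8 := by
                calc (2 : ℝ) ^ (5 * η) ≤ 2 ^ (3 : ℝ) :=
                      Real.rpow_le_rpow_of_exponent_le (by norm_num) (by linarith)
                  _ = 8 := by norm_num
              have h0 : 0 ≤ T ^ (5 * η) := (Real.rpow_pos_of_pos hTpos _).le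
              gcongr
      gcongr)
  refine key.trans (le_of_eq ?_)
  have hrk : r ^ k = (κ / 8) ^ k * T ^ (-(5 * η) * k) := by
    rw [hr, mul_pow, ← Real.rpow_natCast (T ^ (-(5 * η))), ← Real.rpow_mul hTpos.le]
  rw [hrk]
  have hexp : T ^ ((5 * ((k : ℝ) + 1)) * η) = T ^ (5 * η) * (T ^ (-(5 * η) * k))⁻¹ := by
    rw [← Real.rpow_neg hTpos.le, ← Real.rpow_add hTpos]
    congr 1; ring
  rw [hexp]
  have h0 : T ^ (-(5 * η) * k) ≠ 0 := (Real.rpow_pos_of_pos hTpos _).ne'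
  rw [div_pow, div_pow]
  field_simp

/-- the compact rectangle -/
def rect : Set ℂ := {s : ℂ | 1 ≤ s.re ∧ s.re ≤ 2 ∧ |s.im| ≤ 1}

lemma isCompact_rect : IsCompact rect := by
  refine Metric.isCompact_of_isClosed_isBounded ?_ ?_
  · have e : rect = (Complex.re ⁻¹' Set.Icc 1 2) ∩ ((fun s : ℂ => |s.im|) ⁻¹' Set.Iic 1) := by
      ext z; simp [rect, and_assoc]
    rw [e]
    exact (isClosed_Icc.preimage Complex.continuous_re).inter
      (isClosed_Iic.preimage Complex.continuous_im.abs)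
  · refine (Metric.isBounded_iff_subset_closedBall 0).mpr ⟨3, fun z hz => ?_⟩
    rw [mem_closedBall_zero_iff]
    have := Complex.norm_le_abs_re_add_abs_im z
    have h1 : |z.re| ≤ 2 := abs_le.mpr ⟨by linarith [hz.1], hz.2.1⟩
    linarith [hz.2.2]

lemma zeta1_ne_zero {s : ℂ} (hs : 1 ≤ s.re) : riemannZeta₁ s ≠ 0 := by
  rcases eq_or_ne s 1 with rfl | h
  · simp
  · intro h0
    have := riemannZeta_ne_zero_of_one_le_re hs
    rw [riemannZeta_eq_inv_sub_mul h, h0, mul_zero] at this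
    exact this rfl

lemma isOpen_zeta1_ne : IsOpen {s : ℂ | riemannZeta₁ s ≠ 0} :=
  isOpen_ne_fun differentiable_riemannZeta₁.continuous continuous_const

lemma norm_le_add_of_rpow {T a b : ℝ} (hT : 1 ≤ T) (hab : a ≤ b) : T ^ a ≤ T ^ b :=
  Real.rpow_le_rpow_of_exponent_le hT hab

/-- gluing the compact part and the part `|Im s| ≥ 1` -/
lemma glue {F G : ℂ → ℂ} {k : ℕ} {δ : ℝ} (hδ : 0 < δ)
    (hG : DifferentiableOn ℂ G {s : ℂ | riemannZeta₁ s ≠ 0})
    (hFG : ∀ s : ℂ, 1 < s.re → F s = G s)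
    (hbig : ∃ C : ℝ, ∀ s : ℂ, 1 ≤ s.re → s.re ≤ 2 → 1 ≤ |s.im| →
      ‖iteratedDeriv k F s‖ ≤ C * ht s ^ δ) :
    ∃ C : ℝ, 1 ≤ C ∧ ∀ s : ℂ, 1 < s.re → s.re ≤ 2 → ‖iteratedDeriv k F s‖ ≤ C * ht s ^ δ := by
  obtain ⟨C1, hC1⟩ := hbig
  obtain ⟨C2, hC2⟩ := iteratedDeriv_bdd_compact (K := rect) isOpen_zeta1_ne hG isCompact_rect
    (fun s hs => zeta1_ne_zero hs.1) k
  refine ⟨max 1 (max C1 C2), le_max_left _ _, fun s h1 h2 => ?_⟩
  have hT : 1 ≤ ht s ^ δ := one_le_ht_rpow s hδ.le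
  rcases le_total 1 |s.im| with h | h
  · refine (hC1 s h1.le h2 h).trans ?_
    have : C1 ≤ max 1 (max C1 C2) := (le_max_left _ _).trans (le_max_right _ _)
    gcongr
  · have e : iteratedDeriv k F s = iteratedDeriv k G s := by
      apply Filter.EventuallyEq.iteratedDeriv_eq
      have : {z : ℂ | 1 < z.re} ∈ nhds s :=
        (isOpen_lt continuous_const Complex.continuous_re).mem_nhds h1
      filter_upwards [this] with z hz
      exact hFG z hz
    rw [e]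
    refine (hC2 s ⟨h1.le, h2, h⟩).trans ?_
    have h3 : C2 ≤ max 1 (max C1 C2) := (le_max_right _ _).trans (le_max_right _ _)
    have h4 : 1 ≤ max 1 (max C1 C2) := le_max_left _ _
    calc C2 ≤ max 1 (max C1 C2) * 1 := by linarith
      _ ≤ _ := by gcongr

/-- `k`-th derivative of `1/ζ` -/
theorem iteratedDeriv_inv_zeta (k : ℕ) {δ : ℝ} (hδ : 0 < δ) (hδ1 : δ ≤ 1) :
    ∃ C : ℝ, 1 ≤ C ∧ ∀ s : ℂ, 1 < s.re → s.re ≤ 2 →
      ‖iteratedDeriv k (fun z => (riemannZeta z)⁻¹) s‖ ≤ C * ht s ^ δ := by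
  set η : ℝ := δ / (5 * (k + 1)) with hη
  have hk : (0 : ℝ) < 5 * ((k : ℝ) + 1) := by positivity
  have hηpos : 0 < η := by positivity
  have hη1 : η ≤ 1 / 2 := by
    rw [hη, div_le_iff₀ hk]
    have : (0 : ℝ) ≤ k := Nat.cast_nonneg k
    linarith
  obtain ⟨κ, c, hκ, hκ1, hc, hlow⟩ := zeta_lower hηpos hη1
  refine glue (G := fun z => (z - 1) / riemannZeta₁ z) hδ ?_ ?_
    ⟨k.factorial * (8 * (1 / c)) * (8 / κ) ^ k, fun s h1 h2 h3 => ?_⟩
  · intro z hz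
    exact ((differentiable_id.sub_const 1).differentiableAt.div
      differentiable_riemannZeta₁.differentiableAt hz).differentiableWithinAt
  · intro s hs
    have hne : s ≠ 1 := by rintro rfl; simp at hs
    rw [riemannZeta_eq_inv_sub_mul hne, mul_inv, inv_inv]
    rfl
  · have key := cauchy_region (F := fun z => (riemannZeta z)⁻¹) (C := 1 / c) hηpos hη1 hκ hκ1
      (by positivity) (fun z h4 h5 h6 => by
        have hz : z.im ≠ 0 := by intro h; rw [h, abs_zero] at h6; linarith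
        have hl := hlow z h4 h5 h6
        have hpos : 0 < c * ht z ^ (-(4 * η)) := mul_pos hc (Real.rpow_pos_of_pos (ht_pos z) _)
        exact (zeta_differentiableAt hz).inv (norm_pos_iff.mp (hpos.trans_le hl)))
      (fun z h4 h5 h6 => by
        have hl := hlow z h4 h5 h6
        have hpos : 0 < c * ht z ^ (-(4 * η)) := mul_pos hc (Real.rpow_pos_of_pos (ht_pos z) _)
        rw [norm_inv]
        calc ‖riemannZeta z‖⁻¹ ≤ (c * ht z ^ (-(4 * η)))⁻¹ := by gcongr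
          _ = 1 / c * ht z ^ (4 * η) := by
              rw [mul_inv, ← Real.rpow_neg (ht_pos z).le, neg_neg, one_div]
          _ ≤ 1 / c * ht z ^ (5 * η) := by
              have := norm_le_add_of_rpow (T := ht z) (a := 4 * η) (b := 5 * η)
                (by linarith [two_le_ht z]) (by linarith)
              gcongr) k s h1 h2 h3
    have e : (5 * ((k : ℝ) + 1)) * η = δ := by rw [hη]; field_simp
    rw [e] at key
    exact key

/-- `k`-th derivative of `-ζ'/ζ - ζ` -/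
theorem iteratedDeriv_logDeriv_zeta (k : ℕ) {δ : ℝ} (hδ : 0 < δ) (hδ1 : δ ≤ 1) :
    ∃ C : ℝ, 1 ≤ C ∧ ∀ s : ℂ, 1 < s.re → s.re ≤ 2 →
      ‖iteratedDeriv k (fun z => -deriv riemannZeta z / riemannZeta z - riemannZeta z) s‖ ≤
        C * ht s ^ δ := by
  set η : ℝ := δ / (5 * (k + 1)) with hη
  have hk : (0 : ℝ) < 5 * ((k : ℝ) + 1) := by positivity
  have hηpos : 0 < η := by positivity
  have hη1 : η ≤ 1 / 2 := by
    rw [hη, div_le_iff₀ hk]
    have : (0 : ℝ) ≤ k := Nat.cast_nonneg k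
    linarith
  obtain ⟨κ, c, hκ, hκ1, hc, hlow⟩ := zeta_lower hηpos hη1
  obtain ⟨C, hC1, hC⟩ := zeta_upper hηpos hη1
  obtain ⟨D, hD1, hD⟩ := zeta_deriv_upper hηpos hη1
  refine glue (G := fun z => -deriv riemannZeta₁ z / riemannZeta₁ z - riemannZeta₀ z) hδ ?_ ?_
    ⟨k.factorial * (8 * (D / c + C)) * (8 / κ) ^ k, fun s h1 h2 h3 => ?_⟩
  · intro z hz
    refine DifferentiableAt.differentiableWithinAt ?_
    refine DifferentiableAt.sub (DifferentiableAt.div ?_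
      differentiable_riemannZeta₁.differentiableAt hz)
      differentiable_riemannZeta₀.differentiableAt
    refine DifferentiableAt.neg ?_
    have : AnalyticAt ℂ riemannZeta₁ z := differentiable_riemannZeta₁.analyticAt z
    exact this.deriv.differentiableAt
  · intro s hs
    have hne : s ≠ 1 := by rintro rfl; simp at hs
    have hz1 : riemannZeta₁ s ≠ 0 := zeta1_ne_zero hs.le
    have hs1 : s - 1 ≠ 0 := sub_ne_zero.mpr hne
    have hder : deriv riemannZeta s = -((s - 1)⁻¹) ^ 2 * riemannZeta₁ s +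
        (s - 1)⁻¹ * deriv riemannZeta₁ s := by
      have h1 : riemannZeta =ᶠ[nhds s] fun z => (z - 1)⁻¹ * riemannZeta₁ z := by
        filter_upwards [isOpen_ne.mem_nhds hne] with z hz
        exact riemannZeta_eq_inv_sub_mul hz
      rw [h1.deriv_eq]
      have h2 : HasDerivAt (fun z : ℂ => (z - 1)⁻¹) (-1 / (s - 1) ^ 2) s :=
        ((hasDerivAt_id s).sub_const 1).inv hs1
      have h3 := h2.mul (differentiable_riemannZeta₁.differentiableAt (x := s)).hasDerivAt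
      have h4 : deriv (fun z => (z - 1)⁻¹ * riemannZeta₁ z) s = _ := h3.deriv
      rw [h4]
      field_simp
    rw [hder]
    have h0 : riemannZeta s = (s - 1)⁻¹ * riemannZeta₁ s := riemannZeta_eq_inv_sub_mul hne
    have h0' : riemannZeta₀ s = (s - 1)⁻¹ * riemannZeta₁ s - (s - 1)⁻¹ := by
      rw [← h0, riemannZeta_eq_inv_sub_add hne]; ring
    rw [h0, h0']
    field_simp
    ring
  · have hreg1 : ∀ z : ℂ, 1 - κ * ht z ^ (-(5 * η)) ≤ z.re → 1 - η / 2 ≤ z.re := by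
      intro z h4
      have hT5 : ht z ^ (-(5 * η)) ≤ 1 := Real.rpow_le_one_of_one_le_of_nonpos
        (by linarith [two_le_ht z]) (by linarith)
      have : κ * ht z ^ (-(5 * η)) ≤ κ * 1 := by gcongr
      linarith
    have key := cauchy_region
      (F := fun z => -deriv riemannZeta z / riemannZeta z - riemannZeta z) (C := D / c + C)
      hηpos hη1 hκ hκ1
      (by positivity) (fun z h4 h5 h6 => by
        have hz : z.im ≠ 0 := by intro h; rw [h, abs_zero] at h6; linarith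
        have hne : z ≠ 1 := by rintro rfl; simp at hz
        have hl := hlow z h4 h5 h6
        have hpos : 0 < c * ht z ^ (-(4 * η)) := mul_pos hc (Real.rpow_pos_of_pos (ht_pos z) _)
        have hz0 : riemannZeta z ≠ 0 := norm_pos_iff.mp (hpos.trans_le hl)
        have han : AnalyticAt ℂ riemannZeta z := by
          have hU : IsOpen {w : ℂ | w ≠ 1} := isOpen_ne
          have : DifferentiableOn ℂ riemannZeta {w : ℂ | w ≠ 1} := fun w hw =>
            (differentiableAt_riemannZeta hw).differentiableWithinAt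
          exact this.analyticAt (hU.mem_nhds hne)
        exact (han.deriv.differentiableAt.neg.div (zeta_differentiableAt hz) hz0).sub
          (zeta_differentiableAt hz))
      (fun z h4 h5 h6 => by
        have hl := hlow z h4 h5 h6
        have hpos : 0 < c * ht z ^ (-(4 * η)) := mul_pos hc (Real.rpow_pos_of_pos (ht_pos z) _)
        have hT1 : 1 ≤ ht z := by linarith [two_le_ht z]
        have hd := hD z (hreg1 z h4) h5 h6
        have hu := hC z (by have := hreg1 z h4; linarith) (by linarith) (by linarith)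
        have hTη : 0 < ht z ^ η := Real.rpow_pos_of_pos (ht_pos z) _
        have e5 : ht z ^ (5 * η) = ht z ^ η * ht z ^ (4 * η) := by
          rw [← Real.rpow_add (ht_pos z)]; congr 1; ring
        have hinv : ‖riemannZeta z‖⁻¹ ≤ 1 / c * ht z ^ (4 * η) := by
          calc ‖riemannZeta z‖⁻¹ ≤ (c * ht z ^ (-(4 * η)))⁻¹ := by gcongr
            _ = 1 / c * ht z ^ (4 * η) := by
              rw [mul_inv, ← Real.rpow_neg (ht_pos z).le, neg_neg, one_div]
        calc ‖-deriv riemannZeta z / riemannZeta z - riemannZeta z‖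
            ≤ ‖-deriv riemannZeta z / riemannZeta z‖ + ‖riemannZeta z‖ := norm_sub_le _ _
          _ = ‖deriv riemannZeta z‖ * ‖riemannZeta z‖⁻¹ + ‖riemannZeta z‖ := by
              rw [norm_div, norm_neg, div_eq_mul_inv]
          _ ≤ (D * ht z ^ η) * (1 / c * ht z ^ (4 * η)) + C * ht z ^ η := by gcongr
          _ = D / c * ht z ^ (5 * η) + C * ht z ^ η := by rw [e5]; ring
          _ ≤ D / c * ht z ^ (5 * η) + C * ht z ^ (5 * η) := by
              have := norm_le_add_of_rpow (T := ht z) (a := η) (b := 5 * η) hT1 (by linarith)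
              gcongr
          _ = (D / c + C) * ht z ^ (5 * η) := by ring) k s h1 h2 h3
    have e : (5 * ((k : ℝ) + 1)) * η = δ := by rw [hη]; field_simp
    rw [e] at key
    exact key

end Crest.Agent.SW.ZS
end

-- ▼ part SW/MuPsi
section

/-!
# The prime number theorem with `(log x)^{-A}` saving

`mu_sum`: `|∑_{n ≤ x} μ(n)| ≤ C x/(log x)^m`
`psi_sum`: `|∑_{n ≤ x} Λ(n) - x| ≤ C x/(log x)^m`
-/

namespace Crest.Agent.SW.ZS

open Complex Finset Crest.Agent.R001.SW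

lemma ht_half_le {s : ℂ} : ht s ^ (1 / 2 : ℝ) ≤ 2 * (1 + |s.im|) ^ (1 / 2 : ℝ) := by
  have h0 := abs_nonneg s.im
  have h1 : ht s ≤ 4 * (1 + |s.im|) := by unfold ht; linarith
  calc ht s ^ (1 / 2 : ℝ) ≤ (4 * (1 + |s.im|)) ^ (1 / 2 : ℝ) :=
        Real.rpow_le_rpow (ht_pos s).le h1 (by norm_num)
    _ = 4 ^ (1 / 2 : ℝ) * (1 + |s.im|) ^ (1 / 2 : ℝ) :=
        Real.mul_rpow (by norm_num) (by linarith)
    _ = 2 * (1 + |s.im|) ^ (1 / 2 : ℝ) := by
        congr 1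
        rw [show (4 : ℝ) = 2 ^ (2 : ℝ) by norm_num, ← Real.rpow_mul (by norm_num)]
        norm_num

lemma LSeries_mu {s : ℂ} (hs : 1 < s.re) :
    LSeries (fun n => ((ArithmeticFunction.moebius n : ℤ) : ℂ)) s = (riemannZeta s)⁻¹ := by
  have h := ArithmeticFunction.LSeries_zeta_mul_Lseries_moebius hs
  rw [ArithmeticFunction.LSeries_zeta_eq_riemannZeta hs] at h
  exact eq_inv_of_mul_eq_one_right h

lemma LSeries_Lam_sub_one {s : ℂ} (hs : 1 < s.re) :
    LSeries (fun n => ((ArithmeticFunction.vonMangoldt n : ℝ) : ℂ) - 1) s =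
      -deriv riemannZeta s / riemannZeta s - riemannZeta s := by
  have h1 := ArithmeticFunction.LSeries_vonMangoldt_eq_deriv_riemannZeta_div hs
  have h2 := LSeries_one_eq_riemannZeta hs
  rw [← h1, ← h2]
  have h3 := LSeries_sub (f := fun n => ((ArithmeticFunction.vonMangoldt n : ℝ) : ℂ)) (g := 1)
    (s := s) (ArithmeticFunction.LSeriesSummable_vonMangoldt hs) (LSeriesSummable_one_iff.mpr hs)
  rw [← h3]
  rfl

lemma iteratedDeriv_congr_re {F G : ℂ → ℂ} (h : ∀ s : ℂ, 1 < s.re → F s = G s) (k : ℕ) {s : ℂ}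
    (hs : 1 < s.re) : iteratedDeriv k F s = iteratedDeriv k G s := by
  apply Filter.EventuallyEq.iteratedDeriv_eq
  have : {z : ℂ | 1 < z.re} ∈ nhds s :=
    (isOpen_lt continuous_const Complex.continuous_re).mem_nhds hs
  filter_upwards [this] with z hz
  exact h z hz

theorem mu_sum (m : ℕ) : ∃ C : ℝ, ∀ x : ℝ, 2 ≤ x →
    ‖∑ n ∈ Finset.Icc 1 ⌊x⌋₊, ((ArithmeticFunction.moebius n : ℤ) : ℂ)‖ ≤
      C * x / Real.log x ^ m := by
  obtain ⟨C, hC, h⟩ := engine m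
  obtain ⟨D, hD1, hD⟩ := iteratedDeriv_inv_zeta (2 * m + 1) (δ := 1 / 2) (by norm_num)
    (by norm_num)
  refine ⟨C * (2 * D), fun x hx => ?_⟩
  refine h _ (2 * D) (by linarith) (fun n hn => ?_) (fun s h1 h2 => ?_) x hx
  · have h1 : ‖((ArithmeticFunction.moebius n : ℤ) : ℂ)‖ ≤ 1 := by
      rw [Complex.norm_intCast]
      exact_mod_cast ArithmeticFunction.abs_moebius_le_one
    have h2 : 0 ≤ Real.log n := Real.log_natCast_nonneg n
    linarith
  · rw [iteratedDeriv_congr_re (G := fun z => (riemannZeta z)⁻¹) (fun s hs => LSeries_mu hs) _ h1]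
    refine (hD s h1 h2).trans ?_
    calc D * ht s ^ (1 / 2 : ℝ) ≤ D * (2 * (1 + |s.im|) ^ (1 / 2 : ℝ)) := by
          gcongr; exact ht_half_le
      _ = _ := by ring

theorem Lam_sub_one_sum (m : ℕ) : ∃ C : ℝ, ∀ x : ℝ, 2 ≤ x →
    ‖∑ n ∈ Finset.Icc 1 ⌊x⌋₊, (((ArithmeticFunction.vonMangoldt n : ℝ) : ℂ) - 1)‖ ≤
      C * x / Real.log x ^ m := by
  obtain ⟨C, hC, h⟩ := engine m
  obtain ⟨D, hD1, hD⟩ := iteratedDeriv_logDeriv_zeta (2 * m + 1) (δ := 1 / 2) (by norm_num)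
    (by norm_num)
  refine ⟨C * (2 * D), fun x hx => ?_⟩
  refine h _ (2 * D) (by linarith) (fun n hn => ?_) (fun s h1 h2 => ?_) x hx
  · have h2 : ‖((ArithmeticFunction.vonMangoldt n : ℝ) : ℂ)‖ ≤ Real.log n := by
      rw [Complex.norm_real, Real.norm_of_nonneg ArithmeticFunction.vonMangoldt_nonneg]
      exact ArithmeticFunction.vonMangoldt_le_log
    calc ‖((ArithmeticFunction.vonMangoldt n : ℝ) : ℂ) - 1‖
        ≤ ‖((ArithmeticFunction.vonMangoldt n : ℝ) : ℂ)‖ + ‖(1 : ℂ)‖ := norm_sub_le _ _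
      _ ≤ 1 + Real.log n := by rw [norm_one]; linarith
  · rw [iteratedDeriv_congr_re
      (G := fun z => -deriv riemannZeta z / riemannZeta z - riemannZeta z)
      (fun s hs => LSeries_Lam_sub_one hs) _ h1]
    refine (hD s h1 h2).trans ?_
    calc D * ht s ^ (1 / 2 : ℝ) ≤ D * (2 * (1 + |s.im|) ^ (1 / 2 : ℝ)) := by
          gcongr; exact ht_half_le
      _ = _ := by ring


/-- `ψ(x) = x + O(x/(log x)^m)` -/
theorem psi_sum (m : ℕ) : ∃ C : ℝ, ∀ x : ℝ, 2 ≤ x →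
    |∑ n ∈ Finset.Icc 1 ⌊x⌋₊, ArithmeticFunction.vonMangoldt n - x| ≤
      C * x / Real.log x ^ m := by
  obtain ⟨C, hC⟩ := Lam_sub_one_sum m
  refine ⟨C + m.factorial, fun x hx => ?_⟩
  have hx0 : 0 < x := by linarith
  have hl : 0 < Real.log x := Real.log_pos (by linarith)
  have h1 := hC x hx
  have e : (∑ n ∈ Finset.Icc 1 ⌊x⌋₊, (((ArithmeticFunction.vonMangoldt n : ℝ) : ℂ) - 1)) =
      ((∑ n ∈ Finset.Icc 1 ⌊x⌋₊, ArithmeticFunction.vonMangoldt n - ⌊x⌋₊ : ℝ) : ℂ) := by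
    rw [Finset.sum_sub_distrib]
    push_cast
    simp
  rw [e, Complex.norm_real, Real.norm_eq_abs] at h1
  have h2 : |(⌊x⌋₊ : ℝ) - x| ≤ 1 := by
    rw [abs_le]
    have := Nat.lt_floor_add_one x
    have := Nat.floor_le hx0.le
    constructor <;> linarith
  have h3 : (1 : ℝ) ≤ m.factorial * x / Real.log x ^ m := by
    rw [le_div_iff₀ (by positivity), one_mul]
    exact log_pow_le m (by linarith)
  calc |∑ n ∈ Finset.Icc 1 ⌊x⌋₊, ArithmeticFunction.vonMangoldt n - x|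
      = |(∑ n ∈ Finset.Icc 1 ⌊x⌋₊, ArithmeticFunction.vonMangoldt n - ⌊x⌋₊) +
          ((⌊x⌋₊ : ℝ) - x)| := by congr 1; ring
    _ ≤ _ := abs_add_le _ _
    _ ≤ C * x / Real.log x ^ m + m.factorial * x / Real.log x ^ m := by linarith
    _ = (C + m.factorial) * x / Real.log x ^ m := by ring

end Crest.Agent.SW.ZS
end

-- ▼ part SW/Princ

/-!
# Principal characters; Liouville function

Everything for the principal character follows from `q = 1`.
-/

namespace Crest.Agent.SW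

open Finset Crest.Agent.R001.SW

lemma muR_cast (n : ℕ) : ((muR n : ℝ) : ℂ) = ((ArithmeticFunction.moebius n : ℤ) : ℂ) := by
  unfold muR; push_cast; rfl

theorem sav_lam_of_mu {P : ∀ q : ℕ, DirichletCharacter ℂ q → Prop}
    (h : Sav P (fun n => ((muR n : ℝ) : ℂ))) : Sav P (fun n => ((lam n : ℝ) : ℂ)) := by
  refine sav_sq (f := fun n => ((muR n : ℝ) : ℂ)) (c := fun _ => 1) ?_ ?_ ?_ ?_ h
  · intro n; rw [Complex.norm_real]; exact abs_muR_le n
  · intro n; rw [Complex.norm_real]; exact abs_lam_le n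
  · intro n; simp
  · intro n N hn hN
    rw [lam_eq_sum n N hn hN]
    push_cast
    simp


/-- `q = 1` -/
theorem sav_mu_one : Sav (fun q _ => q = 1) (fun n => ((muR n : ℝ) : ℂ)) := by
  refine sav_of_large (fun n _ => ?_) fun A B hA _ => ?_
  · rw [Complex.norm_real]
    have := abs_muR_le n
    have h2 := Real.log_natCast_nonneg n
    rw [Real.norm_eq_abs]; linarith
  · obtain ⟨C, hC⟩ := ZS.mu_sum ⌈A⌉₊
    refine ⟨|C|, 3, fun x _ hx3 q _ _ χ hq => ?_⟩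
    subst hq
    have hl1 := one_le_log hx3
    have h1 := hC x (by linarith)
    have e : ∑ n ∈ Icc 1 ⌊x⌋₊, ((muR n : ℝ) : ℂ) * χ n =
        ∑ n ∈ Icc 1 ⌊x⌋₊, ((ArithmeticFunction.moebius n : ℤ) : ℂ) := by
      refine Finset.sum_congr rfl fun n _ => ?_
      have : χ (n : ZMod 1) = 1 := by
        rw [Subsingleton.elim (n : ZMod 1) 1, map_one]
      rw [this, mul_one, muR_cast]
    rw [e]
    refine h1.trans ?_
    have h2 : Real.log x ^ A ≤ Real.log x ^ ⌈A⌉₊ := by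
      rw [← Real.rpow_natCast]
      exact Real.rpow_le_rpow_of_exponent_le hl1 (Nat.le_ceil A)
    have hx0 : 0 ≤ x := by linarith
    calc C * x / Real.log x ^ ⌈A⌉₊ ≤ |C| * x / Real.log x ^ ⌈A⌉₊ := by
          gcongr; exact le_abs_self C
      _ ≤ |C| * x / Real.log x ^ A := by gcongr

theorem sav_lam_one : Sav (fun q _ => q = 1) (fun n => ((lam n : ℝ) : ℂ)) :=
  sav_lam_of_mu sav_mu_one

/-- summatory function of `λ` -/
noncomputable def Lsum (x : ℝ) : ℝ := ∑ n ∈ Icc 1 ⌊x⌋₊, lam n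

/-- saving for `∑_{n ≤ x} λ(n)` -/
theorem Lsum_bound (A : ℝ) : ∃ C : ℝ, ∀ x : ℝ, 2 ≤ x → |Lsum x| ≤ C * x / (Real.log x) ^ A := by
  obtain ⟨C, hC⟩ := sav_lam_one A 0
  refine ⟨C, fun x hx => ?_⟩
  have h := hC x hx 1 le_rfl (by simp) 1 rfl
  have e : ∑ n ∈ Icc 1 ⌊x⌋₊, ((lam n : ℝ) : ℂ) * (1 : DirichletCharacter ℂ 1) n =
      ((Lsum x : ℝ) : ℂ) := by
    unfold Lsum
    push_cast
    refine Finset.sum_congr rfl fun n _ => ?_
    have : (1 : DirichletCharacter ℂ 1) (n : ZMod 1) = 1 := by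
      rw [Subsingleton.elim (n : ZMod 1) 1, map_one]
    rw [this, mul_one]
  rwa [e, Complex.norm_real] at h

lemma Lsum_trivial {x : ℝ} (hx : 0 ≤ x) : |Lsum x| ≤ x := by
  unfold Lsum
  calc |∑ n ∈ Icc 1 ⌊x⌋₊, lam n| ≤ ∑ n ∈ Icc 1 ⌊x⌋₊, |lam n| := Finset.abs_sum_le_sum_abs _ _
    _ ≤ ∑ n ∈ Icc 1 ⌊x⌋₊, (1 : ℝ) := Finset.sum_le_sum fun n _ => abs_lam_le n
    _ = ⌊x⌋₊ := by simp
    _ ≤ x := Nat.floor_le hx








lemma Sav.mono {P Q : ∀ q : ℕ, DirichletCharacter ℂ q → Prop} {f : ℕ → ℂ}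
    (h1 : Sav P f) (h : ∀ q χ, Q q χ → P q χ) : Sav Q f := by
  intro A B
  obtain ⟨C1, hC1⟩ := h1 A B
  exact ⟨C1, fun x hx q hq hqB χ hχ => hC1 x hx q hq hqB χ (h q χ hχ)⟩



end Crest.Agent.SW
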