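import Crest.Agent.SW.LLower2_259
import Mathlib
import Crest.Agent.SW.SiegelA
import Crest.Agent.SW.Engine3_259
import Crest.Agent.SW.LamChi301
import Crest.Agent.SW.Princ
import Crest.Agent.SW.PsiAP301

-- ▼ part SW/LInv259
section

/-!
# Siegel–Walfisz library: derivatives of `F / L(·, χ)` on `Re s > 1` (helper259)
-/

set_option autoImplicit false
set_option maxHeartbeats 1000000

open Complex Metric

namespace Crest.Agent.SW

noncomputable section

open DirichletCharacter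

/-- the exponent used for the `k`-th derivative -/
def ek (k : ℕ) : ℝ := 1 / (2 * (7 * k + 7))

theorem ek_pos (k : ℕ) : 0 < ek k := by unfold ek; positivity

theorem ek_le (k : ℕ) : ek k ≤ 1 / 2 := by
  unfold ek
  rw [div_le_div_iff₀ (by positivity) (by norm_num)]
  have : (0 : ℝ) ≤ k := Nat.cast_nonneg k
  linarith

theorem ek_mul (k : ℕ) : ek k * ((7 * k + 7 : ℕ) : ℝ) = 1 / 2 := by
  unfold ek
  push_cast
  field_simp

theorem quot_deriv_bound (hS : SiegelProp) (k : ℕ) : ∃ C : ℝ, 0 < C ∧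
    ∀ (q : ℕ) [NeZero q] (χ : DirichletCharacter ℂ q), χ ≠ 1 → ∀ (F : ℂ → ℂ) (A : ℝ) (s : ℂ),
      1 < s.re → s.re ≤ 2 →
      (∀ z : ℂ, ‖z - s‖ ≤ ek k / 4 → DifferentiableAt ℂ F z ∧ ‖F z‖ ≤ A * Qc q s ^ ek k) →
      ‖iteratedDeriv k (fun z => F z / LFunction χ z) s‖ ≤ C * A * Qc q s ^ (1 / 2 : ℝ) := by
  have hη := ek_pos k
  have hη1 := ek_le k
  obtain ⟨c, hc, hlow⟩ := L_lower hS hη hη1
  have hCd := Cd_ge hη hη1
  set r0 : ℝ := min (ek k / 4) (c / (4 * Cd (ek k))) with hr0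
  have hr00 : 0 < r0 := lt_min (by positivity) (by positivity)
  refine ⟨k.factorial * (2 / c) / r0 ^ k, by positivity, ?_⟩
  intro q _ χ hχ F A s h1 h2 hF
  have hq : 1 ≤ q := Nat.one_le_iff_ne_zero.mpr (NeZero.ne q)
  have hQ2 := Qc_ge hq s
  set T := Qc q s ^ ek k with hT
  have hT1 : 1 ≤ T := Real.one_le_rpow (by linarith) hη.le
  have hT0 : 0 < T := by linarith
  have hA : 0 ≤ A := by
    have := (norm_nonneg _).trans (hF s (by simp; positivity)).2
    by_contra h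
    push Not at h
    have : A * T < 0 := mul_neg_of_neg_of_pos h hT0
    linarith
  set r : ℝ := r0 / T ^ 7 with hr
  have hT7 : 1 ≤ T ^ 7 := one_le_pow₀ hT1
  have hr0' : 0 < r := by positivity
  have hrr0 : r ≤ r0 := div_le_self hr00.le hT7
  have hrη : r ≤ ek k / 4 := hrr0.trans (min_le_left _ _)
  -- lower bound on the disc
  have hdisc : ∀ z ∈ closedBall s r, c / (2 * T ^ 6) ≤ ‖LFunction χ z‖ := by
    intro z hz
    rw [mem_closedBall_iff_norm] at hz
    have hs0 := hlow q χ hχ s h1 h2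
    rw [← hT] at hs0
    have hdiff := Convex.norm_image_sub_le_of_norm_deriv_le (𝕜 := ℂ) (f := LFunction χ)
      (C := Cd (ek k) * (2 * T)) (s := closedBall s r) (x := s) (y := z)
      (fun z _ => (differentiable_LFunction hχ).differentiableAt)
      (fun w hw => ?_) (convex_closedBall s r) (mem_closedBall_self hr0'.le)
      (by rwa [mem_closedBall_iff_norm])
    · have h3 : ‖LFunction χ s‖ - ‖LFunction χ z‖ ≤ ‖LFunction χ z - LFunction χ s‖ := by
        rw [norm_sub_rev]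
        exact norm_sub_norm_le _ _
      have h4 : Cd (ek k) * (2 * T) * ‖z - s‖ ≤ c / (2 * T ^ 6) := by
        calc Cd (ek k) * (2 * T) * ‖z - s‖ ≤ Cd (ek k) * (2 * T) * r := by gcongr
          _ ≤ Cd (ek k) * (2 * T) * (c / (4 * Cd (ek k)) / T ^ 7) := by
              rw [hr]
              gcongr
              exact min_le_right _ _
          _ = c / (2 * T ^ 6) := by
              field_simp
              norm_num
      have h5 : c / T ^ 6 = c / (2 * T ^ 6) + c / (2 * T ^ 6) := by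
        field_simp
        norm_num
      linarith
    · rw [mem_closedBall_iff_norm] at hw
      have hre : |w.re - s.re| ≤ r := by
        have := Complex.abs_re_le_norm (w - s)
        rw [Complex.sub_re] at this
        linarith
      rw [abs_le] at hre
      refine (L_deriv_bound hη hη1 hχ (by linarith [hre.1]) (by linarith [hre.2])).trans ?_
      have := Qc_rpow_near (q := q) (s := s) (z := w) (by linarith) hη.le (by linarith)
      gcongr
  have hne : ∀ z ∈ closedBall s r, LFunction χ z ≠ 0 := by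
    intro z hz h0
    have := hdisc z hz
    rw [h0, norm_zero] at this
    have : 0 < c / (2 * T ^ 6) := by positivity
    linarith
  have hDC : DiffContOnCl ℂ (fun z => F z / LFunction χ z) (ball s r) := by
    apply DifferentiableOn.diffContOnCl_ball (U := closedBall s r) _ subset_rfl
    intro z hz
    apply DifferentiableAt.differentiableWithinAt
    refine (hF z ?_).1.div (differentiable_LFunction hχ).differentiableAt (hne z hz)
    rw [mem_closedBall_iff_norm] at hz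
    linarith
  have hcauchy := Complex.norm_iteratedDeriv_le_of_forall_mem_sphere_norm_le (c := s) (R := r)
    (C := A * T * (2 * T ^ 6 / c)) k hr0' hDC ?_
  · refine hcauchy.trans (le_of_eq ?_)
    have e1 : Qc q s ^ (1 / 2 : ℝ) = T ^ (7 * k + 7) := by
      rw [hT, ← Real.rpow_natCast, ← Real.rpow_mul (by linarith), ek_mul]
    rw [e1, hr, div_pow, ← pow_mul]
    field_simp
    ring
  · intro z hz
    have hz' : z ∈ closedBall s r := sphere_subset_closedBall hz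
    have h3 := hdisc z hz'
    rw [mem_sphere_iff_norm] at hz
    have h4 := (hF z (by linarith)).2
    rw [norm_div, div_le_iff₀ (norm_pos_iff.mpr (hne z hz'))]
    calc ‖F z‖ ≤ A * T := h4
      _ = A * T * (2 * T ^ 6 / c) * (c / (2 * T ^ 6)) := by field_simp
      _ ≤ A * T * (2 * T ^ 6 / c) * ‖LFunction χ z‖ := by gcongr


/-- derivatives of `L' / L` -/
theorem logDeriv_deriv_bound (hS : SiegelProp) (k : ℕ) : ∃ C : ℝ, 0 < C ∧
    ∀ (q : ℕ) [NeZero q] (χ : DirichletCharacter ℂ q), χ ≠ 1 → ∀ (s : ℂ),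
      1 < s.re → s.re ≤ 2 →
      ‖iteratedDeriv k (fun z => deriv (LFunction χ) z / LFunction χ z) s‖ ≤
        C * Qc q s ^ (1 / 2 : ℝ) := by
  obtain ⟨C, hC, h⟩ := quot_deriv_bound hS k
  have hCd := Cd_ge (ek_pos k) (ek_le k)
  refine ⟨C * (2 * Cd (ek k)), by positivity, fun q _ χ hχ s h1 h2 => ?_⟩
  have hη := ek_pos k
  have hη1 := ek_le k
  refine h q χ hχ (deriv (LFunction χ)) (2 * Cd (ek k)) s h1 h2 ?_
  intro z hz
  refine ⟨?_, ?_⟩
  · exact ((differentiable_LFunction hχ).contDiff (n := 2)).differentiable_deriv_two z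
  · have hre : |z.re - s.re| ≤ ek k / 4 := by
      have := Complex.abs_re_le_norm (z - s)
      rw [Complex.sub_re] at this
      linarith
    rw [abs_le] at hre
    refine (L_deriv_bound hη hη1 hχ (by linarith [hre.1]) (by linarith [hre.2])).trans ?_
    have := Qc_rpow_near (q := q) (s := s) (z := z) (by linarith) hη.le (by linarith)
    calc Cd (ek k) * Qc q z ^ ek k ≤ Cd (ek k) * (2 * Qc q s ^ ek k) := by gcongr
      _ = _ := by ring

end

end Crest.Agent.SW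
end

-- ▼ part SW/SiegelB
section

/-!
# Siegel's theorem, part B (helper301)

The arithmetic function `1 * ψ₁ * ψ₂ * ψ₁ψ₂` is nonnegative for quadratic characters `ψ₁, ψ₂` of
the same level; its Dirichlet series.
-/

set_option autoImplicit false

open Complex Filter Set ArithmeticFunction
open scoped ComplexOrder

namespace Crest.Agent.SW.Siegel

variable {N : ℕ}

/-- the arithmetic function of a character -/
noncomputable abbrev af (χ : DirichletCharacter ℂ N) : ArithmeticFunction ℂ :=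
  toArithmeticFunction (fun n : ℕ => χ n)

/-- `1 * α * β * αβ` -/
noncomputable def A4 (α β : DirichletCharacter ℂ N) : ArithmeticFunction ℂ :=
  α.zetaMul * (af β * af (α * β))

lemma af_apply (χ : DirichletCharacter ℂ N) {n : ℕ} (hn : n ≠ 0) : af χ n = χ n := by
  simp [af, toArithmeticFunction, hn]

lemma A4_mult (α β : DirichletCharacter ℂ N) : (A4 α β).IsMultiplicative :=
  α.isMultiplicative_zetaMul.mul
    ((DirichletCharacter.isMultiplicative_toArithmeticFunction β).mul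
      (DirichletCharacter.isMultiplicative_toArithmeticFunction (α * β)))

lemma snd_apply (α β : DirichletCharacter ℂ N) {n : ℕ} (hn : n ≠ 0) :
    (af β * af (α * β)) n = β n * α.zetaMul n := by
  unfold DirichletCharacter.zetaMul
  rw [ArithmeticFunction.mul_apply, ArithmeticFunction.mul_apply, Finset.mul_sum]
  refine Finset.sum_congr rfl fun p hp => ?_
  obtain ⟨h1, h2⟩ := Nat.mem_divisorsAntidiagonal.mp hp
  have hp1 : p.1 ≠ 0 := fun h => h2 (by rw [← h1, h, zero_mul])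
  have hp2 : p.2 ≠ 0 := fun h => h2 (by rw [← h1, h, mul_zero])
  rw [af_apply β hp1, af_apply (α * β) hp2, natCoe_apply, zeta_apply_ne hp1]
  have h3 : toArithmeticFunction (fun n : ℕ => α n) p.2 = α p.2 := af_apply α hp2
  rw [h3, ← h1]
  push_cast
  rw [map_mul, MulChar.mul_apply]
  ring

lemma A4_prime_pow_of {α β : DirichletCharacter ℂ N} (hα : α ^ 2 = 1) {p : ℕ} (hp : p.Prime)
    (hβ : 0 ≤ β p) (k : ℕ) : 0 ≤ A4 α β (p ^ k) := by
  unfold A4
  rw [ArithmeticFunction.mul_apply]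
  refine Finset.sum_nonneg fun x hx => ?_
  obtain ⟨h1, h2⟩ := Nat.mem_divisorsAntidiagonal.mp hx
  have hp2 : x.2 ≠ 0 := fun h => h2 (by rw [← h1, h, mul_zero])
  refine mul_nonneg (DirichletCharacter.zetaMul_nonneg hα _) ?_
  rw [snd_apply α β hp2]
  refine mul_nonneg ?_ (DirichletCharacter.zetaMul_nonneg hα _)
  have h3 : x.2 ∣ p ^ k := ⟨x.1, by rw [← h1, mul_comm]⟩
  obtain ⟨j, -, hj⟩ := (Nat.dvd_prime_pow hp).mp h3
  rw [hj]
  push_cast
  rw [map_pow]
  exact pow_nonneg hβ j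

lemma A4_eq (α β : DirichletCharacter ℂ N) :
    A4 α β = ((ArithmeticFunction.zeta : ArithmeticFunction ℕ) : ArithmeticFunction ℂ) *
      af α * af β * af (α * β) := by
  unfold A4 DirichletCharacter.zetaMul
  change ((ArithmeticFunction.zeta : ArithmeticFunction ℕ) : ArithmeticFunction ℂ) * af α *
    (af β * af (α * β)) = _
  ring

lemma A4_symm (α β : DirichletCharacter ℂ N) : A4 α β = A4 β α := by
  rw [A4_eq, A4_eq, mul_comm α β]
  ring

lemma A4_third {α : DirichletCharacter ℂ N} (hα : α ^ 2 = 1) (β : DirichletCharacter ℂ N) :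
    A4 α β = A4 α (α * β) := by
  rw [A4_eq, A4_eq, ← mul_assoc α α β, ← sq, hα, one_mul]
  ring

lemma A4_nonneg {α β : DirichletCharacter ℂ N} (hα : α ^ 2 = 1) (hβ : β ^ 2 = 1) (n : ℕ) :
    0 ≤ A4 α β n := by
  rcases eq_or_ne n 0 with rfl | hn
  · simp
  rw [(A4_mult α β).multiplicative_factorization _ hn]
  refine Finset.prod_nonneg fun p hp => ?_
  have hpp := Nat.prime_of_mem_primeFactors hp
  rcases MulChar.isQuadratic_iff_sq_eq_one.mpr hβ p with h | h | h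
  · exact A4_prime_pow_of hα hpp (by rw [h]) _
  · exact A4_prime_pow_of hα hpp (by rw [h]; exact zero_le_one) _
  · rcases MulChar.isQuadratic_iff_sq_eq_one.mpr hα p with h' | h' | h'
    · rw [A4_symm]
      exact A4_prime_pow_of hβ hpp (by rw [h']) _
    · rw [A4_symm]
      exact A4_prime_pow_of hβ hpp (by rw [h']; exact zero_le_one) _
    · rw [A4_third hα]
      refine A4_prime_pow_of hα hpp ?_ _
      rw [MulChar.mul_apply, h, h']
      norm_num

lemma A4_one (α β : DirichletCharacter ℂ N) : A4 α β 1 = 1 := (A4_mult α β).map_one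

lemma summable_af (χ : DirichletCharacter ℂ N) {s : ℂ} (hs : 1 < s.re) :
    LSeriesSummable (fun n => af χ n) s := by
  refine (LSeriesSummable_congr s fun {n} hn => ?_).mpr
    (DirichletCharacter.LSeriesSummable_of_one_lt_re χ hs)
  exact af_apply χ hn

lemma LSeries_af (χ : DirichletCharacter ℂ N) (s : ℂ) :
    LSeries (fun n => af χ n) s = LSeries (fun n : ℕ => χ n) s :=
  LSeries_congr (fun {n} hn => af_apply χ hn) s

lemma summable_snd (α β : DirichletCharacter ℂ N) {s : ℂ} (hs : 1 < s.re) :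
    LSeriesSummable (fun n => (af β * af (α * β)) n) s :=
  ArithmeticFunction.LSeriesSummable_mul (summable_af β hs) (summable_af (α * β) hs)

lemma summable_A4 (α β : DirichletCharacter ℂ N) {s : ℂ} (hs : 1 < s.re) :
    LSeriesSummable (fun n => A4 α β n) s :=
  ArithmeticFunction.LSeriesSummable_mul (α.LSeriesSummable_zetaMul hs) (summable_snd α β hs)

lemma LSeries_zetaMul (α : DirichletCharacter ℂ N) {s : ℂ} (hs : 1 < s.re) :
    LSeries (fun n => α.zetaMul n) s = riemannZeta s * LSeries (fun n : ℕ => α n) s := by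
  have h1 : LSeriesSummable
      (fun n => ((ArithmeticFunction.zeta : ArithmeticFunction ℕ) : ArithmeticFunction ℂ) n) s := by
    have := LSeriesSummable_zeta_iff.mpr hs
    simpa using this
  have h2 := ArithmeticFunction.LSeries_mul' h1 (summable_af α hs)
  have h3 : LSeries
      (fun n => ((ArithmeticFunction.zeta : ArithmeticFunction ℕ) : ArithmeticFunction ℂ) n) s =
      riemannZeta s := by
    rw [← LSeries_zeta_eq_riemannZeta hs]
    rfl
  rw [h3, LSeries_af] at h2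
  exact h2

/-- the Dirichlet series of `A4` -/
theorem LSeries_A4 [NeZero N] (α β : DirichletCharacter ℂ N) {s : ℂ} (hs : 1 < s.re) :
    LSeries (fun n => A4 α β n) s = riemannZeta s * (DirichletCharacter.LFunction α s *
      DirichletCharacter.LFunction β s * DirichletCharacter.LFunction (α * β) s) := by
  unfold A4
  rw [ArithmeticFunction.LSeries_mul' (α.LSeriesSummable_zetaMul hs) (summable_snd α β hs),
    LSeries_zetaMul α hs,
    ArithmeticFunction.LSeries_mul' (summable_af β hs) (summable_af (α * β) hs),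
    LSeries_af, LSeries_af, DirichletCharacter.LFunction_eq_LSeries α hs,
    DirichletCharacter.LFunction_eq_LSeries β hs,
    DirichletCharacter.LFunction_eq_LSeries (α * β) hs]
  ring

lemma abscissa_A4 (α β : DirichletCharacter ℂ N) :
    LSeries.abscissaOfAbsConv (fun n => A4 α β n) < ((2 : ℝ) : EReal) := by
  have h : LSeries.abscissaOfAbsConv (fun n => A4 α β n) ≤ ((3 / 2 : ℝ) : EReal) := by
    have := (summable_A4 α β (s := ((3 / 2 : ℝ) : ℂ)) (by norm_num)).abscissaOfAbsConv_le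
    simpa using this
  refine lt_of_le_of_lt h ?_
  exact_mod_cast (by norm_num : (3 / 2 : ℝ) < 2)

/-- the alternating derivatives at `2` -/
theorem A4_alternating {α β : DirichletCharacter ℂ N} (hα : α ^ 2 = 1) (hβ : β ^ 2 = 1) (m : ℕ) :
    0 ≤ (-1) ^ m * iteratedDeriv m (LSeries (fun n => A4 α β n)) (2 : ℝ) :=
  LSeries.iteratedDeriv_alternating (fun n => A4_nonneg hα hβ n) (abscissa_A4 α β) m

theorem A4_two_ge {α β : DirichletCharacter ℂ N} (hα : α ^ 2 = 1) (hβ : β ^ 2 = 1) :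
    1 ≤ (LSeries (fun n => A4 α β n) (2 : ℝ)).re := by
  have hs : LSeriesSummable (fun n => A4 α β n) ((2 : ℝ) : ℂ) :=
    summable_A4 α β (by norm_num)
  have h1 : (LSeries (fun n => A4 α β n) (2 : ℝ)).re =
      ∑' n, (LSeries.term (fun n => A4 α β n) ((2 : ℝ) : ℂ) n).re := by
    unfold LSeries
    exact Complex.re_tsum hs
  rw [h1]
  have h2 : ∀ n, 0 ≤ (LSeries.term (fun n => A4 α β n) ((2 : ℝ) : ℂ) n).re := fun n =>
    (Complex.le_def.mp (LSeries.term_nonneg (A4_nonneg hα hβ n) 2)).1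
  have h3 : Summable fun n => (LSeries.term (fun n => A4 α β n) ((2 : ℝ) : ℂ) n).re :=
    (Complex.hasSum_re hs.hasSum).summable
  have h4 := h3.le_tsum 1 (fun n _ => h2 n)
  have h5 : (LSeries.term (fun n => A4 α β n) ((2 : ℝ) : ℂ) 1).re = 1 := by
    rw [LSeries.term_of_ne_zero one_ne_zero, A4_one]
    simp
  rw [h5] at h4
  exact h4

end Crest.Agent.SW.Siegel
end

-- ▼ part SW/SiegelC
section

/-!
# Siegel's theorem, part C (helper301)

The lower bound for `L(1,α) L(1,β) L(1,αβ)` when `ζ(x) L(x,α) L(x,β) L(x,αβ) ≤ 0` at a point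
`x < 1` close to `1`.
-/

set_option autoImplicit false

open Complex Filter Set Metric
open scoped Topology Nat ComplexOrder

namespace Crest.Agent.SW.Siegel

/-- the real-variable core: a power series with nonnegative coefficients `b` -/
lemma core {b : ℕ → ℝ} (hb : ∀ m, 0 ≤ b m) (hb0 : 1 ≤ b 0) {l K x S : ℝ} (hK : 1 ≤ K)
    (hbl : ∀ m, |b m - l| ≤ K * (2 / 3) ^ m) (hx : 7 / 8 < x) (hx1 : x < 1)
    (hS : HasSum (fun m : ℕ => (b m - l) * (2 - x) ^ m) S) (hS0 : S - l / (1 - x) ≤ 0) :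
    1 - x ≤ 6 * (8 * K) ^ (4 * (1 - x)) * l := by
  have hx' : 0 < 1 - x := by linarith
  have hr1 : 1 < 2 - x := by linarith
  have hlog0 : 0 < Real.log (8 * K) := Real.log_pos (by linarith)
  obtain ⟨M, hM⟩ : ∃ M, M = ⌈4 * Real.log (8 * K)⌉₊ := ⟨_, rfl⟩
  have hM1 : 4 * Real.log (8 * K) ≤ M := by rw [hM]; exact Nat.le_ceil _
  have hM2 : (M : ℝ) ≤ 4 * Real.log (8 * K) + 1 := by
    rw [hM]; exact (Nat.ceil_lt_add_one (by positivity)).le
  have hM0 : 0 < M := by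
    have : (0 : ℝ) < M := lt_of_lt_of_le (by positivity) hM1
    exact_mod_cast this
  -- size of the tail
  have hlog43 : 1 / 4 ≤ Real.log (4 / 3) := by
    have := Real.one_sub_inv_le_log_of_pos (by norm_num : (0 : ℝ) < 4 / 3)
    norm_num at this ⊢
    exact this
  have hpow : 8 * K ≤ (4 / 3 : ℝ) ^ M := by
    have h1 : Real.log (8 * K) ≤ Real.log ((4 / 3 : ℝ) ^ M) := by
      rw [Real.log_pow]
      nlinarith
    exact (Real.log_le_log_iff (by linarith) (by positivity)).mp h1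
  have htail : 4 * K * (3 / 4 : ℝ) ^ M ≤ 1 / 2 := by
    have h2 : (3 / 4 : ℝ) ^ M = ((4 / 3 : ℝ) ^ M)⁻¹ := by rw [← inv_pow]; norm_num
    rw [h2]
    have h3 : ((4 / 3 : ℝ) ^ M)⁻¹ ≤ (8 * K)⁻¹ := inv_anti₀ (by linarith) hpow
    calc 4 * K * ((4 / 3 : ℝ) ^ M)⁻¹ ≤ 4 * K * (8 * K)⁻¹ := by gcongr
      _ = 1 / 2 := by field_simp; norm_num
  have hterm : ∀ m, |(b m - l) * (2 - x) ^ m| ≤ K * (3 / 4) ^ m := by
    intro m
    rw [abs_mul, abs_of_pos (by positivity : (0 : ℝ) < (2 - x) ^ m)]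
    calc |b m - l| * (2 - x) ^ m ≤ K * (2 / 3) ^ m * (9 / 8) ^ m := by
          gcongr
          · exact hbl m
          · linarith
      _ = K * (3 / 4) ^ m := by rw [mul_assoc, ← mul_pow]; norm_num
  -- split the sum
  have hsum := hS.summable
  have hsplit := hsum.sum_add_tsum_nat_add M
  rw [hS.tsum_eq] at hsplit
  have hgeo : HasSum (fun m : ℕ => K * (3 / 4 : ℝ) ^ (m + M)) (4 * K * (3 / 4) ^ M) := by
    have := (hasSum_geometric_of_lt_one (by norm_num : (0 : ℝ) ≤ 3 / 4) (by norm_num)).mul_left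
      (K * (3 / 4) ^ M)
    have e1 : (fun m : ℕ => K * (3 / 4 : ℝ) ^ (m + M)) =
        fun m : ℕ => K * (3 / 4) ^ M * (3 / 4) ^ m := by
      funext m; rw [pow_add]; ring
    have e2 : 4 * K * (3 / 4 : ℝ) ^ M = K * (3 / 4) ^ M * (1 - 3 / 4)⁻¹ := by
      norm_num; ring
    rw [e1, e2]
    exact this
  have h4 : -(4 * K * (3 / 4) ^ M) ≤ ∑' m : ℕ, (b (m + M) - l) * (2 - x) ^ (m + M) := by
    rw [← hgeo.tsum_eq, ← tsum_neg]
    refine Summable.tsum_le_tsum (fun m => ?_) hgeo.summable.neg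
      ((summable_nat_add_iff M).mpr hsum)
    exact (abs_le.mp (hterm (m + M))).1
  have h5 : 1 - l * (((2 - x) ^ M - 1) / (1 - x)) ≤
      ∑ m ∈ Finset.range M, (b m - l) * (2 - x) ^ m := by
    have h6 : ∑ m ∈ Finset.range M, (b m - l) * (2 - x) ^ m =
        ∑ m ∈ Finset.range M, b m * (2 - x) ^ m - l * ∑ m ∈ Finset.range M, (2 - x) ^ m := by
      rw [Finset.mul_sum, ← Finset.sum_sub_distrib]
      exact Finset.sum_congr rfl fun m _ => by ring
    rw [h6, geom_sum_eq (by linarith), show 2 - x - 1 = 1 - x by ring]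
    have h7 : 1 ≤ ∑ m ∈ Finset.range M, b m * (2 - x) ^ m := by
      have h8 : b 0 * (2 - x) ^ 0 ≤ ∑ m ∈ Finset.range M, b m * (2 - x) ^ m :=
        Finset.single_le_sum (f := fun m => b m * (2 - x) ^ m)
          (fun m _ => mul_nonneg (hb m) (by positivity)) (Finset.mem_range.mpr hM0)
      rw [pow_zero, mul_one] at h8
      exact hb0.trans h8
    linarith
  have h9 : 1 / 2 ≤ l * ((2 - x) ^ M / (1 - x)) := by
    have h10 : l * ((2 - x) ^ M / (1 - x)) = l * (((2 - x) ^ M - 1) / (1 - x)) + l / (1 - x) := by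
      field_simp
      ring
    rw [h10]
    linarith
  have hl : 0 < l := by
    by_contra hl
    push Not at hl
    have : l * ((2 - x) ^ M / (1 - x)) ≤ 0 := mul_nonpos_of_nonpos_of_nonneg hl (by positivity)
    linarith
  have h11 : (2 - x) ^ M ≤ 3 * (8 * K) ^ (4 * (1 - x)) := by
    have h12 : (2 - x) ≤ Real.exp (1 - x) := by
      have := Real.add_one_le_exp (1 - x)
      linarith
    calc (2 - x) ^ M ≤ (Real.exp (1 - x)) ^ M := by gcongr
      _ = Real.exp ((1 - x) * M) := by rw [mul_comm, Real.exp_nat_mul]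
      _ ≤ Real.exp ((1 - x) * (4 * Real.log (8 * K) + 1)) := by gcongr
      _ = Real.exp (1 - x) * (8 * K) ^ (4 * (1 - x)) := by
          rw [Real.rpow_def_of_pos (by linarith), ← Real.exp_add]
          ring_nf
      _ ≤ 3 * (8 * K) ^ (4 * (1 - x)) := by
          gcongr
          calc Real.exp (1 - x) ≤ Real.exp 1 := by gcongr; linarith
            _ ≤ 3 := Real.exp_one_lt_three.le
  have h13 : 1 - x ≤ 2 * (l * (2 - x) ^ M) := by
    have h14 : l * ((2 - x) ^ M / (1 - x)) = (l * (2 - x) ^ M) / (1 - x) := by ring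
    rw [h14, le_div_iff₀ hx'] at h9
    linarith
  calc 1 - x ≤ 2 * (l * (2 - x) ^ M) := h13
    _ ≤ 2 * (l * (3 * (8 * K) ^ (4 * (1 - x)))) := by gcongr
    _ = 6 * (8 * K) ^ (4 * (1 - x)) * l := by ring

variable {N : ℕ} [NeZero N]

/-- the product of the three `L`-functions -/
noncomputable def P3 (α β : DirichletCharacter ℂ N) (s : ℂ) : ℂ :=
  DirichletCharacter.LFunction α s * DirichletCharacter.LFunction β s *
    DirichletCharacter.LFunction (α * β) s

lemma differentiable_P3 {α β : DirichletCharacter ℂ N} (hα : α ≠ 1) (hβ : β ≠ 1)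
    (hαβ : α * β ≠ 1) : Differentiable ℂ (P3 α β) :=
  ((DirichletCharacter.differentiable_LFunction hα).mul
    (DirichletCharacter.differentiable_LFunction hβ)).mul
      (DirichletCharacter.differentiable_LFunction hαβ)

/-- the entire function `ζ(s) P3(s) - P3(1)/(s-1)` -/
noncomputable def G (α β : DirichletCharacter ℂ N) (s : ℂ) : ℂ :=
  riemannZeta₀ s * P3 α β s + dslope (P3 α β) 1 s

lemma differentiable_G {α β : DirichletCharacter ℂ N} (hα : α ≠ 1) (hβ : β ≠ 1)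
    (hαβ : α * β ≠ 1) : Differentiable ℂ (G α β) := by
  have h1 := differentiable_P3 hα hβ hαβ
  have h2 : Differentiable ℂ (dslope (P3 α β) 1) := by
    rw [← differentiableOn_univ, Complex.differentiableOn_dslope (univ_mem)]
    exact h1.differentiableOn
  exact (differentiable_riemannZeta₀.mul h1).add h2

lemma G_eq (α β : DirichletCharacter ℂ N) {s : ℂ} (hs : s ≠ 1) :
    G α β s = riemannZeta s * P3 α β s - P3 α β 1 * (s - 1)⁻¹ := by
  unfold G
  rw [riemannZeta_eq_inv_sub_add hs, dslope_of_ne _ hs, slope_def_field]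
  have : s - 1 ≠ 0 := sub_ne_zero.mpr hs
  field_simp
  ring

lemma LSeries_A4_eventuallyEq (α β : DirichletCharacter ℂ N) :
    LSeries (fun n => A4 α β n) =ᶠ[𝓝 2] fun s => riemannZeta s * P3 α β s := by
  have : {z : ℂ | 1 < z.re} ∈ 𝓝 (2 : ℂ) :=
    (isOpen_lt continuous_const Complex.continuous_re).mem_nhds (by simp)
  filter_upwards [this] with z hz
  exact LSeries_A4 α β hz

lemma iteratedDeriv_inv_sub (m : ℕ) :
    iteratedDeriv m (fun s : ℂ => (s - 1)⁻¹) 2 = (-1) ^ m * m ! := by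
  have h := congrFun (iter_deriv_inv_linear_sub (𝕜 := ℂ) m 1 1) 2
  rw [iteratedDeriv_eq_iterate]
  simp only [one_mul] at h
  rw [h]
  norm_num

lemma iteratedDeriv_G {α β : DirichletCharacter ℂ N} (hα : α ≠ 1) (hβ : β ≠ 1)
    (hαβ : α * β ≠ 1) (m : ℕ) :
    iteratedDeriv m (G α β) 2 = iteratedDeriv m (LSeries (fun n => A4 α β n)) 2 -
      P3 α β 1 * ((-1) ^ m * m !) := by
  have h2 : (2 : ℂ) ≠ 1 := by norm_num
  have hnhds : ({1}ᶜ : Set ℂ) ∈ 𝓝 (2 : ℂ) := isOpen_ne.mem_nhds h2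
  have h1 : G α β =ᶠ[𝓝 2]
      (fun s => riemannZeta s * P3 α β s) - (fun s => P3 α β 1 * (s - 1)⁻¹) := by
    filter_upwards [hnhds] with z hz
    rw [Pi.sub_apply]
    exact G_eq α β hz
  have hF : ContDiffAt ℂ m (fun s => riemannZeta s * P3 α β s) 2 := by
    have : AnalyticAt ℂ (fun s => riemannZeta s * P3 α β s) 2 := by
      have h3 : DifferentiableOn ℂ (fun s => riemannZeta s * P3 α β s) {1}ᶜ := by
        intro z hz
        exact ((differentiableAt_riemannZeta hz).mul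
          (differentiable_P3 hα hβ hαβ z)).differentiableWithinAt
      exact h3.analyticAt hnhds
    exact this.contDiffAt
  have hG : ContDiffAt ℂ m (fun s : ℂ => P3 α β 1 * (s - 1)⁻¹) 2 := by
    refine contDiffAt_const.mul ?_
    refine ContDiffAt.inv (contDiffAt_id.sub contDiffAt_const) ?_
    norm_num
  have hI : ContDiffAt ℂ m (fun s : ℂ => (s - 1)⁻¹) 2 := by
    refine ContDiffAt.inv (contDiffAt_id.sub contDiffAt_const) ?_
    norm_num
  rw [h1.iteratedDeriv_eq, iteratedDeriv_sub hF hG,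
    (LSeries_A4_eventuallyEq α β).iteratedDeriv_eq]
  congr 1
  rw [iteratedDeriv_const_mul_field, iteratedDeriv_inv_sub]

/-- the (normalised, alternating) Taylor coefficients of the Dirichlet series at `2` -/
noncomputable def bc (α β : DirichletCharacter ℂ N) (m : ℕ) : ℝ :=
  ((-1) ^ m * iteratedDeriv m (LSeries (fun n => A4 α β n)) 2).re / m !

lemma bc_nonneg {α β : DirichletCharacter ℂ N} (hα : α ^ 2 = 1) (hβ : β ^ 2 = 1) (m : ℕ) :
    0 ≤ bc α β m := by
  unfold bc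
  have h := A4_alternating hα hβ m
  have h1 := (Complex.le_def.mp h).1
  simp only [Complex.zero_re] at h1
  have h2 : (((2 : ℝ) : ℂ)) = 2 := by norm_num
  rw [h2] at h1
  positivity

lemma bc_zero {α β : DirichletCharacter ℂ N} (hα : α ^ 2 = 1) (hβ : β ^ 2 = 1) :
    1 ≤ bc α β 0 := by
  unfold bc
  have h := A4_two_ge hα hβ
  have h2 : (((2 : ℝ) : ℂ)) = 2 := by norm_num
  rw [h2] at h
  simpa using h

lemma gcoef {α β : DirichletCharacter ℂ N} (hα : α ≠ 1) (hβ : β ≠ 1)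
    (hαβ : α * β ≠ 1) (m : ℕ) :
    ((-1) ^ m * iteratedDeriv m (G α β) 2 / m !).re = bc α β m - (P3 α β 1).re := by
  rw [iteratedDeriv_G hα hβ hαβ]
  have hm : ((m ! : ℕ) : ℂ) ≠ 0 := by exact_mod_cast (Nat.factorial_ne_zero m)
  have h1 : ((-1 : ℂ) ^ m * (iteratedDeriv m (LSeries (fun n => A4 α β n)) 2 -
      P3 α β 1 * ((-1) ^ m * m !))) / m ! =
      ((-1) ^ m * iteratedDeriv m (LSeries (fun n => A4 α β n)) 2) / ((m ! : ℝ) : ℂ) -
        P3 α β 1 := by
    have h2 : ((-1 : ℂ) ^ m) * ((-1) ^ m) = 1 := by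
      rw [← mul_pow]; norm_num
    push_cast
    field_simp
    linear_combination (-(P3 α β 1) * (m ! : ℂ)) * h2
  rw [h1, Complex.sub_re, Complex.div_ofReal_re]
  rfl

/-- a bound for `ζ(s) - 1/(s-1)` on the circle -/
lemma exists_zeta_bound : ∃ Z : ℝ, 0 ≤ Z ∧ ∀ s ∈ sphere (2 : ℂ) (3 / 2), ‖riemannZeta₀ s‖ ≤ Z := by
  obtain ⟨Z, hZ⟩ := (isCompact_sphere (2 : ℂ) (3 / 2)).exists_bound_of_continuousOn
    differentiable_riemannZeta₀.continuous.continuousOn
  exact ⟨max Z 0, le_max_right _ _, fun s hs => (hZ s hs).trans (le_max_left _ _)⟩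

lemma circle_bounds {s : ℂ} (hs : s ∈ sphere (2 : ℂ) (3 / 2)) :
    1 / 2 ≤ s.re ∧ ‖s‖ ≤ 7 / 2 ∧ 1 / 2 ≤ ‖s - 1‖ := by
  rw [mem_sphere_iff_norm] at hs
  refine ⟨?_, ?_, ?_⟩
  · have h1 := Complex.abs_re_le_norm (s - 2)
    rw [hs] at h1
    have h2 := (abs_le.mp h1).1
    simp at h2
    linarith
  · have : s = (s - 2) + 2 := by ring
    rw [this]
    refine (norm_add_le _ _).trans ?_
    rw [hs]
    norm_num
  · have : s - 2 = (s - 1) - 1 := by ring
    have h1 := norm_sub_le (s - 1) 1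
    rw [← this, hs, norm_one] at h1
    linarith

lemma norm_L_circle {χ : DirichletCharacter ℂ N} (hχ : χ ≠ 1) {s : ℂ}
    (hs : s ∈ sphere (2 : ℂ) (3 / 2)) : ‖DirichletCharacter.LFunction χ s‖ ≤ 7 * N := by
  obtain ⟨h1, h2, -⟩ := circle_bounds hs
  have h0 : 0 < s.re := by linarith
  refine (norm_LFunction_le hχ h0).trans ?_
  have hN : (0 : ℝ) ≤ N := Nat.cast_nonneg N
  calc ‖s‖ * (N / s.re) ≤ (7 / 2) * (N / (1 / 2)) := by gcongr
    _ = 7 * N := by ring

lemma norm_P3_circle {α β : DirichletCharacter ℂ N} (hα : α ≠ 1) (hβ : β ≠ 1)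
    (hαβ : α * β ≠ 1) {s : ℂ} (hs : s ∈ sphere (2 : ℂ) (3 / 2)) :
    ‖P3 α β s‖ ≤ 343 * (N : ℝ) ^ 3 := by
  unfold P3
  rw [norm_mul, norm_mul]
  have h1 := norm_L_circle hα hs
  have h2 := norm_L_circle hβ hs
  have h3 := norm_L_circle hαβ hs
  calc ‖DirichletCharacter.LFunction α s‖ * ‖DirichletCharacter.LFunction β s‖ *
      ‖DirichletCharacter.LFunction (α * β) s‖ ≤ (7 * N) * (7 * N) * (7 * N) := by gcongr
    _ = 343 * (N : ℝ) ^ 3 := by ring

lemma norm_P3_one {α β : DirichletCharacter ℂ N} (hα : α ≠ 1) (hβ : β ≠ 1)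
    (hαβ : α * β ≠ 1) : ‖P3 α β 1‖ ≤ (N : ℝ) ^ 3 := by
  unfold P3
  rw [norm_mul, norm_mul]
  have h : ∀ {χ : DirichletCharacter ℂ N}, χ ≠ 1 → ‖DirichletCharacter.LFunction χ 1‖ ≤ N := by
    intro χ hχ
    have := norm_LFunction_one_le hχ zero_lt_one le_rfl
    simpa using this
  have h1 := h hα
  have h2 := h hβ
  have h3 := h hαβ
  calc ‖DirichletCharacter.LFunction α 1‖ * ‖DirichletCharacter.LFunction β 1‖ *
      ‖DirichletCharacter.LFunction (α * β) 1‖ ≤ N * N * N := by gcongr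
    _ = (N : ℝ) ^ 3 := by ring

lemma exists_G_bound : ∃ C0 : ℝ, 1 ≤ C0 ∧ ∀ (N : ℕ) [NeZero N] (α β : DirichletCharacter ℂ N),
    α ≠ 1 → β ≠ 1 → α * β ≠ 1 → ∀ s ∈ sphere (2 : ℂ) (3 / 2), ‖G α β s‖ ≤ C0 * (N : ℝ) ^ 3 := by
  obtain ⟨Z, hZ0, hZ⟩ := exists_zeta_bound
  refine ⟨Z * 343 + 2 * (343 + 1), by linarith, ?_⟩
  intro N _ α β hα hβ hαβ s hs
  obtain ⟨-, -, h1⟩ := circle_bounds hs
  have hs1 : s ≠ 1 := by
    rintro rfl
    norm_num at h1
  unfold G
  rw [dslope_of_ne _ hs1, slope_def_field]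
  refine (norm_add_le _ _).trans ?_
  rw [norm_mul, norm_div]
  have h2 := norm_P3_circle hα hβ hαβ hs
  have h3 := norm_P3_one hα hβ hαβ
  have h4 : ‖P3 α β s - P3 α β 1‖ ≤ 343 * (N : ℝ) ^ 3 + (N : ℝ) ^ 3 :=
    (norm_sub_le _ _).trans (add_le_add h2 h3)
  have h5 : ‖P3 α β s - P3 α β 1‖ / ‖s - 1‖ ≤ (343 * (N : ℝ) ^ 3 + (N : ℝ) ^ 3) / (1 / 2) := by
    gcongr
  calc ‖riemannZeta₀ s‖ * ‖P3 α β s‖ + ‖P3 α β s - P3 α β 1‖ / ‖s - 1‖
      ≤ Z * (343 * (N : ℝ) ^ 3) + (343 * (N : ℝ) ^ 3 + (N : ℝ) ^ 3) / (1 / 2) := by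
        gcongr
        exact hZ s hs
    _ = (Z * 343 + 2 * (343 + 1)) * (N : ℝ) ^ 3 := by ring

/-- **Part C**: if `ζ(x) L(x,α) L(x,β) L(x,αβ) ≤ 0` for some `7/8 < x < 1`, then
`L(1,α) L(1,β) L(1,αβ)` is at least `c (1-x) N ^ (-12 (1-x))`. -/
theorem product_lower : ∃ C1 : ℝ, 0 < C1 ∧ ∀ (N : ℕ) [NeZero N] (α β : DirichletCharacter ℂ N),
    α ^ 2 = 1 → β ^ 2 = 1 → α ≠ 1 → β ≠ 1 → α * β ≠ 1 → ∀ x : ℝ, 7 / 8 < x → x < 1 →
    (riemannZeta x * P3 α β x).re ≤ 0 →
    1 - x ≤ C1 * (N : ℝ) ^ (12 * (1 - x)) * (P3 α β 1).re := by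
  obtain ⟨C0, hC0, hG⟩ := exists_G_bound
  refine ⟨6 * (8 * C0), by positivity, ?_⟩
  intro N _ α β hα2 hβ2 hα hβ hαβ x hx hx1 hle
  have hN1 : (1 : ℝ) ≤ N := by exact_mod_cast NeZero.one_le
  have hK : 1 ≤ C0 * (N : ℝ) ^ 3 := by
    have := one_le_pow₀ hN1 (n := 3)
    nlinarith
  have hx' : 0 < 1 - x := by linarith
  have hentire := differentiable_G hα hβ hαβ
  have hcauchy : ∀ m, ‖iteratedDeriv m (G α β) 2‖ ≤ m ! * (C0 * (N : ℝ) ^ 3) / (3 / 2) ^ m := by
    intro m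
    exact Complex.norm_iteratedDeriv_le_of_forall_mem_sphere_norm_le m (by norm_num)
      hentire.diffContOnCl (hG N α β hα hβ hαβ)
  have hfac : ∀ m : ℕ, (0 : ℝ) < m ! := fun m => by exact_mod_cast Nat.factorial_pos m
  have hbl : ∀ m, |bc α β m - (P3 α β 1).re| ≤ C0 * (N : ℝ) ^ 3 * (2 / 3) ^ m := by
    intro m
    rw [← gcoef hα hβ hαβ m]
    refine (Complex.abs_re_le_norm _).trans ?_
    rw [norm_div, norm_mul, norm_pow, norm_neg, norm_one, one_pow, one_mul, Complex.norm_natCast,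
      div_le_iff₀ (hfac m)]
    refine (hcauchy m).trans (le_of_eq ?_)
    have : (2 / 3 : ℝ) ^ m = ((3 / 2 : ℝ) ^ m)⁻¹ := by rw [← inv_pow]; norm_num
    rw [this]
    ring
  have hx1' : (x : ℂ) ≠ 1 := by
    intro h
    have : x = 1 := by exact_mod_cast h
    linarith
  have hsum : HasSum (fun m : ℕ => (bc α β m - (P3 α β 1).re) * (2 - x) ^ m) (G α β x).re := by
    have h1 := Complex.hasSum_taylorSeries_of_entire hentire 2 (x : ℂ)
    have h2 := Complex.hasSum_re h1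
    refine h2.congr_fun ?_ |> fun h => h
    intro m
    rw [← gcoef hα hβ hαβ m]
    have h3 : ((m ! : ℂ)⁻¹ • ((x : ℂ) - 2) ^ m • iteratedDeriv m (G α β) 2) =
        ((-1) ^ m * iteratedDeriv m (G α β) 2 / m !) * (((2 - x) ^ m : ℝ) : ℂ) := by
      simp only [smul_eq_mul]
      push_cast
      have h4 : ((x : ℂ) - 2) ^ m = (-1) ^ m * (2 - (x : ℂ)) ^ m := by
        rw [← mul_pow]; congr 1; ring
      rw [h4]
      ring
    rw [h3, Complex.re_mul_ofReal]
  have hfin : (G α β x).re - (P3 α β 1).re / (1 - x) ≤ 0 := by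
    have h1 := G_eq α β hx1'
    have h2 : P3 α β 1 * ((x : ℂ) - 1)⁻¹ = -(P3 α β 1 / ((1 - x : ℝ) : ℂ)) := by
      push_cast
      rw [← neg_sub (1 : ℂ) (x : ℂ), inv_neg]
      ring
    rw [h1, h2, sub_neg_eq_add, Complex.add_re, Complex.div_ofReal_re]
    linarith
  have hfinal := core (bc_nonneg hα2 hβ2) (bc_zero hα2 hβ2) hK hbl hx hx1 hsum hfin
  have hlam : 0 ≤ (P3 α β 1).re := by
    by_contra h
    push Not at h
    have : 6 * (8 * (C0 * (N : ℝ) ^ 3)) ^ (4 * (1 - x)) * (P3 α β 1).re ≤ 0 :=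
      mul_nonpos_of_nonneg_of_nonpos (by positivity) h.le
    linarith
  refine hfinal.trans ?_
  have h5 : (8 * (C0 * (N : ℝ) ^ 3)) ^ (4 * (1 - x)) ≤ (8 * C0) * (N : ℝ) ^ (12 * (1 - x)) := by
    have h6 : 8 * (C0 * (N : ℝ) ^ 3) = (8 * C0) * (N : ℝ) ^ (3 : ℝ) := by
      norm_cast
      ring
    rw [h6, Real.mul_rpow (by positivity) (by positivity), ← Real.rpow_mul (by positivity)]
    have h7 : (8 * C0) ^ (4 * (1 - x)) ≤ (8 * C0) ^ (1 : ℝ) :=
      Real.rpow_le_rpow_of_exponent_le (by linarith) (by linarith)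
    rw [Real.rpow_one] at h7
    have h8 : (3 : ℝ) * (4 * (1 - x)) = 12 * (1 - x) := by ring
    rw [h8]
    gcongr
  calc 6 * (8 * (C0 * (N : ℝ) ^ 3)) ^ (4 * (1 - x)) * (P3 α β 1).re
      ≤ 6 * ((8 * C0) * (N : ℝ) ^ (12 * (1 - x))) * (P3 α β 1).re := by gcongr
    _ = 6 * (8 * C0) * (N : ℝ) ^ (12 * (1 - x)) * (P3 α β 1).re := by ring

end Crest.Agent.SW.Siegel
end

-- ▼ part SW/SiegelMain
section

/-!
# Siegel's theorem (helper301)

`L(1,χ) ≥ c(ε) q^{-ε}` for all real non-principal characters `χ` mod `q`.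
-/

set_option autoImplicit false

open Complex Filter Set Metric
open scoped Topology Nat ComplexOrder

namespace Crest.Agent.SW.Siegel

section single

variable {N : ℕ} [NeZero N]

/-- `L(2,χ) > 0` -/
lemma LFunction_two_pos {χ : DirichletCharacter ℂ N} (hχ : χ ≠ 1) (hχ2 : χ ^ 2 = 1) :
    0 < (DirichletCharacter.LFunction χ 2).re := by
  have hs2 : (1 : ℝ) < (((2 : ℝ) : ℂ)).re := by norm_num
  have hsum : LSeriesSummable (fun n => χ.zetaMul n) ((3 / 2 : ℝ) : ℂ) :=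
    χ.LSeriesSummable_zetaMul (by norm_num)
  have habs : LSeries.abscissaOfAbsConv (fun n => χ.zetaMul n) < ((2 : ℝ) : EReal) := by
    have h : LSeries.abscissaOfAbsConv (fun n => χ.zetaMul n) ≤ ((3 / 2 : ℝ) : EReal) := by
      have := hsum.abscissaOfAbsConv_le
      simpa using this
    refine lt_of_le_of_lt h ?_
    exact_mod_cast (by norm_num : (3 / 2 : ℝ) < 2)
  have h1 : 0 < LSeries (fun n => χ.zetaMul n) ((2 : ℝ) : ℂ) := by
    refine LSeries.positive (fun n => DirichletCharacter.zetaMul_nonneg hχ2 n) ?_ habs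
    have : χ.zetaMul 1 = 1 := χ.isMultiplicative_zetaMul.map_one
    show (0 : ℂ) < χ.zetaMul 1
    rw [this]
    exact zero_lt_one
  rw [LSeries_zetaMul χ hs2, ← DirichletCharacter.LFunction_eq_LSeries χ hs2] at h1
  have h2 : ((2 : ℝ) : ℂ) = 2 := by norm_num
  rw [h2, riemannZeta_two] at h1
  have h3 : (Real.pi : ℂ) ^ 2 / 6 = ((Real.pi ^ 2 / 6 : ℝ) : ℂ) := by push_cast; ring
  rw [h3] at h1
  have h4 := (Complex.lt_def.mp h1).1
  rw [Complex.zero_re, Complex.re_ofReal_mul] at h4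
  have h5 : (0 : ℝ) < Real.pi ^ 2 / 6 := by positivity
  exact pos_of_mul_pos_right h4 h5.le

/-- positivity to the right of all real zeros -/
lemma LFunction_pos_of {χ : DirichletCharacter ℂ N} (hχ : χ ≠ 1) (hχ2 : χ ^ 2 = 1) {x : ℝ}
    (hx : 0 < x) (hx2 : x ≤ 2)
    (hne : ∀ y : ℝ, x ≤ y → y < 1 → DirichletCharacter.LFunction χ y ≠ 0) :
    0 < (DirichletCharacter.LFunction χ x).re := by
  by_contra hcon
  push Not at hcon
  have hcont : ContinuousOn (fun y : ℝ => (DirichletCharacter.LFunction χ y).re) (Icc x 2) := by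
    refine Continuous.continuousOn ?_
    exact Complex.continuous_re.comp
      ((DirichletCharacter.differentiable_LFunction hχ).continuous.comp Complex.continuous_ofReal)
  have h2 : 0 < (DirichletCharacter.LFunction χ ((2 : ℝ) : ℂ)).re := by
    have := LFunction_two_pos hχ hχ2
    simpa using this
  have hmem : (0 : ℝ) ∈ Icc ((DirichletCharacter.LFunction χ x).re)
      ((DirichletCharacter.LFunction χ ((2 : ℝ) : ℂ)).re) := ⟨hcon, h2.le⟩
  obtain ⟨y, ⟨hy1, hy2⟩, hy⟩ := intermediate_value_Icc hx2 hcont hmem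
  have hy0 : DirichletCharacter.LFunction χ y = 0 :=
    Complex.ext (by simpa using hy) (by simpa using LFunction_im hχ hχ2 (lt_of_lt_of_le hx hy1))
  rcases lt_or_ge y 1 with h | h
  · exact hne y hy1 h hy0
  · exact DirichletCharacter.LFunction_ne_zero_of_one_le_re χ (s := y) (.inl hχ) (by simpa using h)
      hy0

theorem LFunction_one_pos {χ : DirichletCharacter ℂ N} (hχ : χ ≠ 1) (hχ2 : χ ^ 2 = 1) :
    0 < (DirichletCharacter.LFunction χ 1).re := by
  have := LFunction_pos_of hχ hχ2 zero_lt_one (by norm_num) (fun y h1 h2 => absurd h1 (by linarith))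
  simpa using this

theorem LFunction_one_im {χ : DirichletCharacter ℂ N} (hχ : χ ≠ 1) (hχ2 : χ ^ 2 = 1) :
    (DirichletCharacter.LFunction χ 1).im = 0 := by
  have := LFunction_im hχ hχ2 zero_lt_one
  simpa using this

end single

/-! ### change of level -/

lemma exists_two_pow_omega_le (η : ℝ) (hη : 0 < η) :
    ∃ C : ℝ, 1 ≤ C ∧ ∀ N : ℕ, N ≠ 0 → (2 : ℝ) ^ N.primeFactors.card ≤ C * (N : ℝ) ^ η := by
  obtain ⟨T, hT⟩ : ∃ T : ℕ, (2 : ℝ) ^ (1 / η) ≤ T := exists_nat_ge _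
  refine ⟨2 ^ T, one_le_pow₀ (by norm_num), ?_⟩
  intro N hN
  have h1 : (2 : ℝ) ^ N.primeFactors.card = ∏ p ∈ N.primeFactors, (2 : ℝ) := by
    rw [Finset.prod_const]
  have h2 : ∏ p ∈ N.primeFactors, (2 : ℝ) ≤
      ∏ p ∈ N.primeFactors, ((if p < T then 2 else 1) * (p : ℝ) ^ η) := by
    refine Finset.prod_le_prod (fun p _ => by norm_num) fun p hp => ?_
    have hp1 : (1 : ℝ) ≤ p := by
      exact_mod_cast (Nat.prime_of_mem_primeFactors hp).one_lt.le
    have hp2 : 1 ≤ (p : ℝ) ^ η := Real.one_le_rpow hp1 hη.le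
    split_ifs with h
    · linarith
    · push Not at h
      rw [one_mul]
      have h3 : (2 : ℝ) ^ (1 / η) ≤ p := hT.trans (by exact_mod_cast h)
      calc (2 : ℝ) = ((2 : ℝ) ^ (1 / η)) ^ η := by
            rw [← Real.rpow_mul (by norm_num)]
            field_simp
            rw [Real.rpow_one]
        _ ≤ (p : ℝ) ^ η := Real.rpow_le_rpow (by positivity) h3 hη.le
  rw [Finset.prod_mul_distrib] at h2
  have h3 : ∏ p ∈ N.primeFactors, (if p < T then (2 : ℝ) else 1) ≤ 2 ^ T := by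
    rw [Finset.prod_ite, Finset.prod_const_one, mul_one, Finset.prod_const]
    refine pow_le_pow_right₀ (by norm_num) ?_
    calc (N.primeFactors.filter (· < T)).card ≤ (Finset.range T).card := by
          refine Finset.card_le_card fun p hp => ?_
          exact Finset.mem_range.mpr (Finset.mem_filter.mp hp).2
      _ = T := Finset.card_range T
  have h4 : ∏ p ∈ N.primeFactors, (p : ℝ) ^ η ≤ (N : ℝ) ^ η := by
    rw [Real.finsetProd_rpow _ _ (fun p _ => Nat.cast_nonneg p)]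
    refine Real.rpow_le_rpow (Finset.prod_nonneg fun p _ => Nat.cast_nonneg p) ?_ hη.le
    have := Nat.le_of_dvd (Nat.pos_of_ne_zero hN) (Nat.prod_primeFactors_dvd N)
    rw [← Nat.cast_prod]
    exact_mod_cast this
  rw [h1]
  refine h2.trans ?_
  refine mul_le_mul h3 h4 ?_ (by positivity)
  exact Finset.prod_nonneg fun p _ => by positivity

section level

variable {q N : ℕ} [NeZero q] [NeZero N]

lemma changeLevel_one_re (h : q ∣ N) {χ : DirichletCharacter ℂ q} (hχ : χ ≠ 1)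
    (hχ2 : χ ^ 2 = 1) :
    ∃ R : ℝ, ((2 : ℝ) ^ N.primeFactors.card)⁻¹ ≤ R ∧ R ≤ 2 ^ N.primeFactors.card ∧
    (DirichletCharacter.LFunction (DirichletCharacter.changeLevel h χ) 1).re =
      (DirichletCharacter.LFunction χ 1).re * R := by
  have hval : ∀ p : ℕ, χ p = (((χ p).re : ℝ) : ℂ) := fun p =>
    (Complex.conj_eq_iff_re.mp (conj_char hχ2 _)).symm
  refine ⟨∏ p ∈ N.primeFactors, (1 - (χ p).re * (p : ℝ)⁻¹), ?_, ?_, ?_⟩
  · rw [← inv_pow, ← Finset.prod_const]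
    refine Finset.prod_le_prod (fun p _ => by norm_num) fun p hp => ?_
    have hp2 : (2 : ℝ) ≤ p := by exact_mod_cast (Nat.prime_of_mem_primeFactors hp).two_le
    have h1 : (χ p).re ≤ 1 := (Complex.re_le_norm _).trans (χ.norm_le_one _)
    have h2 : (p : ℝ)⁻¹ ≤ 2⁻¹ := inv_anti₀ (by norm_num) hp2
    have h3 : (0 : ℝ) < (p : ℝ)⁻¹ := by positivity
    nlinarith
  · rw [← Finset.prod_const]
    refine Finset.prod_le_prod (fun p hp => ?_) fun p hp => ?_
    · have hp2 : (2 : ℝ) ≤ p := by exact_mod_cast (Nat.prime_of_mem_primeFactors hp).two_le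
      have h1 : (χ p).re ≤ 1 := (Complex.re_le_norm _).trans (χ.norm_le_one _)
      have h2 : (p : ℝ)⁻¹ ≤ 2⁻¹ := inv_anti₀ (by norm_num) hp2
      have h3 : (0 : ℝ) < (p : ℝ)⁻¹ := by positivity
      nlinarith
    · have hp2 : (2 : ℝ) ≤ p := by exact_mod_cast (Nat.prime_of_mem_primeFactors hp).two_le
      have h1 : -1 ≤ (χ p).re := by
        have := (abs_le.mp ((Complex.abs_re_le_norm (χ p)).trans (χ.norm_le_one _))).1
        exact this
      have h2 : (p : ℝ)⁻¹ ≤ 2⁻¹ := inv_anti₀ (by norm_num) hp2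
      have h3 : (0 : ℝ) < (p : ℝ)⁻¹ := by positivity
      nlinarith
  · rw [DirichletCharacter.LFunction_changeLevel h χ (.inl hχ)]
    have h4 : ∏ p ∈ N.primeFactors, (1 - χ p * (p : ℂ) ^ (-(1 : ℂ))) =
        ((∏ p ∈ N.primeFactors, (1 - (χ p).re * (p : ℝ)⁻¹) : ℝ) : ℂ) := by
      rw [Complex.ofReal_prod]
      refine Finset.prod_congr rfl fun p _ => ?_
      rw [Complex.cpow_neg_one]
      push_cast
      rw [← hval p]
    rw [h4, Complex.re_mul_ofReal]

lemma changeLevel_sq (h : q ∣ N) {χ : DirichletCharacter ℂ q} (hχ2 : χ ^ 2 = 1) :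
    (DirichletCharacter.changeLevel h χ) ^ 2 = 1 := by
  rw [← map_pow, hχ2, map_one]

lemma changeLevel_ne_one (h : q ∣ N) {χ : DirichletCharacter ℂ q} (hχ : χ ≠ 1) :
    DirichletCharacter.changeLevel h χ ≠ 1 :=
  hχ ∘ (DirichletCharacter.changeLevel_eq_one_iff h).mp

end level

/-- the auxiliary character -/
lemma exists_base (δ : ℝ) (hδ : 0 < δ) (hδ8 : δ ≤ 1 / 8) :
    (∀ (q : ℕ) [NeZero q] (χ : DirichletCharacter ℂ q), χ ^ 2 = 1 → χ = 1) ∨
    ∃ (q₁ : ℕ) (_ : NeZero q₁) (χ₁ : DirichletCharacter ℂ q₁) (x : ℝ), χ₁ ^ 2 = 1 ∧ χ₁ ≠ 1 ∧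
      1 - δ < x ∧ x < 1 ∧ ∀ (N : ℕ) [NeZero N] (h : q₁ ∣ N) (β : DirichletCharacter ℂ N),
        β ^ 2 = 1 → β ≠ 1 → DirichletCharacter.changeLevel h χ₁ * β ≠ 1 →
        (riemannZeta x * P3 (DirichletCharacter.changeLevel h χ₁) β x).re ≤ 0 := by
  by_cases hall : ∀ (q : ℕ) [NeZero q] (χ : DirichletCharacter ℂ q), χ ^ 2 = 1 → χ = 1
  · exact Or.inl hall
  right
  by_cases hex : ∃ (q₁ : ℕ) (_ : NeZero q₁) (χ₁ : DirichletCharacter ℂ q₁) (x : ℝ), χ₁ ^ 2 = 1 ∧
      χ₁ ≠ 1 ∧ 1 - δ < x ∧ x < 1 ∧ DirichletCharacter.LFunction χ₁ x = 0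
  · obtain ⟨q₁, hq₁, χ₁, x, h1, h2, h3, h4, h5⟩ := hex
    refine ⟨q₁, hq₁, χ₁, x, h1, h2, h3, h4, ?_⟩
    intro N _ h β _ _ _
    unfold P3
    rw [DirichletCharacter.LFunction_changeLevel h χ₁ (.inl h2), h5]
    simp
  · push Not at hall hex
    obtain ⟨q₁, hq₁, χ₁, h1, h2⟩ := hall
    -- a point where `ζ` is negative
    obtain ⟨x, hx1, hx2, hx3⟩ : ∃ x : ℝ, 1 - δ < x ∧ x < 1 ∧ (riemannZeta x).re ≤ 0 := by
      obtain ⟨B, hB⟩ := (isCompact_closedBall (1 : ℂ) 1).exists_bound_of_continuousOn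
        differentiable_riemannZeta₀.continuous.continuousOn
      have hB0 : 0 ≤ B := (norm_nonneg _).trans (hB 1 (by simp))
      obtain ⟨t, ht⟩ : ∃ t : ℝ, t = min (δ / 2) (1 / (B + 1)) := ⟨_, rfl⟩
      have ht0 : 0 < t := by rw [ht]; positivity
      have ht1 : t ≤ δ / 2 := by rw [ht]; exact min_le_left _ _
      have ht2 : t ≤ 1 / (B + 1) := by rw [ht]; exact min_le_right _ _
      refine ⟨1 - t, by linarith, by linarith, ?_⟩
      have hne : ((1 - t : ℝ) : ℂ) ≠ 1 := by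
        intro h
        have : (1 - t : ℝ) = 1 := by exact_mod_cast h
        linarith
      rw [riemannZeta_eq_inv_sub_add hne, Complex.add_re]
      have h5 : (((1 - t : ℝ) : ℂ) - 1)⁻¹ = ((-(t⁻¹) : ℝ) : ℂ) := by
        push_cast
        rw [show (1 - (t : ℂ) - 1) = -(t : ℂ) by ring, inv_neg]
      rw [h5, Complex.ofReal_re]
      have h6 : (riemannZeta₀ ((1 - t : ℝ) : ℂ)).re ≤ B := by
        refine (Complex.re_le_norm _).trans (hB _ ?_)
        rw [mem_closedBall, dist_eq_norm]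
        have : ((1 - t : ℝ) : ℂ) - 1 = ((-t : ℝ) : ℂ) := by push_cast; ring
        rw [this, Complex.norm_real, Real.norm_eq_abs, abs_neg, abs_of_pos ht0]
        linarith
      have h7 : B + 1 ≤ t⁻¹ := by
        rw [le_inv_comm₀ (by linarith) ht0]
        simpa using ht2
      linarith
    have hpos : ∀ (N : ℕ) [NeZero N] (β : DirichletCharacter ℂ N), β ^ 2 = 1 → β ≠ 1 →
        0 < (DirichletCharacter.LFunction β x).re ∧
          (DirichletCharacter.LFunction β x).im = 0 := by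
      intro N hN β hβ2 hβ
      refine ⟨?_, LFunction_im hβ hβ2 (by linarith)⟩
      refine LFunction_pos_of hβ hβ2 (by linarith) (by linarith) ?_
      intro y hy1 hy2
      exact hex N hN β y hβ2 hβ (by linarith) hy2
    refine ⟨q₁, hq₁, χ₁, x, h1, h2, hx1, hx2, ?_⟩
    intro N _ h β hβ2 hβ hαβ
    have hα2 := changeLevel_sq h h1
    have hα := changeLevel_ne_one h h2
    have hαβ2 : (DirichletCharacter.changeLevel h χ₁ * β) ^ 2 = 1 := by
      rw [mul_pow, hα2, hβ2, one_mul]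
    obtain ⟨p1, i1⟩ := hpos N _ hα2 hα
    obtain ⟨p2, i2⟩ := hpos N β hβ2 hβ
    obtain ⟨p3, i3⟩ := hpos N _ hαβ2 hαβ
    unfold P3
    have e1 : ∀ z : ℂ, z.im = 0 → z = ((z.re : ℝ) : ℂ) := fun z hz =>
      Complex.ext (by simp) (by simp [hz])
    rw [e1 _ i1, e1 _ i2, e1 _ i3, ← Complex.ofReal_mul, ← Complex.ofReal_mul,
      Complex.re_mul_ofReal]
    exact mul_nonpos_of_nonpos_of_nonneg hx3 (by positivity)

lemma P3_one_re {N : ℕ} [NeZero N] {α β : DirichletCharacter ℂ N} (hα2 : α ^ 2 = 1)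
    (hβ2 : β ^ 2 = 1) (hα : α ≠ 1) (hβ : β ≠ 1) (hαβ : α * β ≠ 1) :
    (P3 α β 1).re = (DirichletCharacter.LFunction α 1).re *
      (DirichletCharacter.LFunction β 1).re * (DirichletCharacter.LFunction (α * β) 1).re := by
  have e1 : ∀ z : ℂ, z.im = 0 → z = ((z.re : ℝ) : ℂ) := fun z hz =>
    Complex.ext (by simp) (by simp [hz])
  have hαβ2 : (α * β) ^ 2 = 1 := by rw [mul_pow, hα2, hβ2, one_mul]
  unfold P3
  rw [e1 _ (LFunction_one_im hα hα2), e1 _ (LFunction_one_im hβ hβ2),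
    e1 _ (LFunction_one_im hαβ hαβ2), ← Complex.ofReal_mul, ← Complex.ofReal_mul]
  simp only [Complex.ofReal_re]

/-- Siegel's theorem for `0 < e ≤ 1` -/
lemma siegel_aux (e : ℝ) (he : 0 < e) (he1 : e ≤ 1) :
    ∃ c > 0, ∀ (q : ℕ) [NeZero q] (χ : DirichletCharacter ℂ q), χ ^ 2 = 1 → χ ≠ 1 →
      c * (q : ℝ) ^ (-e) ≤ (DirichletCharacter.LFunction χ 1).re := by
  rcases exists_base (e / 24) (by positivity) (by linarith) with hno | hbase
  · exact ⟨1, one_pos, fun q _ χ h1 h2 => absurd (hno q χ h1) h2⟩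
  obtain ⟨q₁, hq₁, χ₁, x, h1, h2, hx1, hx2, hbase⟩ := hbase
  obtain ⟨C1, hC1, hprod⟩ := product_lower
  obtain ⟨η, hη⟩ : ∃ η : ℝ, η = e / 12 := ⟨_, rfl⟩
  have hη0 : 0 < η := by rw [hη]; positivity
  have hη1 : η ≤ 1 := by rw [hη]; linarith
  obtain ⟨C2, hC2, hom⟩ := exists_two_pow_omega_le η hη0
  have hL1 := LFunction_one_pos h2 h1
  obtain ⟨L1, hL1'⟩ : ∃ L1, L1 = (DirichletCharacter.LFunction χ₁ 1).re := ⟨_, rfl⟩
  rw [← hL1'] at hL1
  have hq1 : (0 : ℝ) < q₁ := by exact_mod_cast NeZero.pos q₁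
  have hx' : 0 < 1 - x := by linarith
  obtain ⟨c1, hc1⟩ : ∃ c1 : ℝ, c1 = (1 - x) / (C1 * (C2 / η ^ 2) * (q₁ : ℝ) ^ e) := ⟨_, rfl⟩
  obtain ⟨c2, hc2⟩ : ∃ c2 : ℝ, c2 = L1 / (C2 ^ 2 * (q₁ : ℝ) ^ e) := ⟨_, rfl⟩
  have hc1p : 0 < c1 := by rw [hc1]; positivity
  have hc2p : 0 < c2 := by rw [hc2]; positivity
  refine ⟨min c1 c2, lt_min hc1p hc2p, ?_⟩
  intro q _ χ hχ2 hχ
  have hq0 : (0 : ℝ) < q := by exact_mod_cast NeZero.pos q
  obtain ⟨N, hN⟩ : ∃ N, N = q₁ * q := ⟨_, rfl⟩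
  have hNne : N ≠ 0 := by rw [hN]; exact mul_ne_zero (NeZero.ne q₁) (NeZero.ne q)
  have : NeZero N := ⟨hNne⟩
  have hN1 : (1 : ℝ) ≤ N := by exact_mod_cast NeZero.one_le
  have hN0 : (0 : ℝ) < N := by linarith
  have hd1 : q₁ ∣ N := ⟨q, hN⟩
  have hd2 : q ∣ N := ⟨q₁, by rw [hN, mul_comm]⟩
  have hNcast : (N : ℝ) = q₁ * q := by rw [hN]; push_cast; ring
  obtain ⟨α, hα⟩ : ∃ α, α = DirichletCharacter.changeLevel hd1 χ₁ := ⟨_, rfl⟩
  obtain ⟨β, hβ⟩ : ∃ β, β = DirichletCharacter.changeLevel hd2 χ := ⟨_, rfl⟩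
  have hα2 : α ^ 2 = 1 := by rw [hα]; exact changeLevel_sq hd1 h1
  have hβ2 : β ^ 2 = 1 := by rw [hβ]; exact changeLevel_sq hd2 hχ2
  have hα1 : α ≠ 1 := by rw [hα]; exact changeLevel_ne_one hd1 h2
  have hβ1 : β ≠ 1 := by rw [hβ]; exact changeLevel_ne_one hd2 hχ
  obtain ⟨R1, hR1, hR1', hR1''⟩ := changeLevel_one_re hd1 h2 h1
  obtain ⟨R2, hR2, hR2', hR2''⟩ := changeLevel_one_re hd2 hχ hχ2
  rw [← hα, ← hL1'] at hR1''
  rw [← hβ] at hR2''
  obtain ⟨L2, hL2'⟩ : ∃ L2, L2 = (DirichletCharacter.LFunction χ 1).re := ⟨_, rfl⟩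
  have hL2 : 0 < L2 := by rw [hL2']; exact LFunction_one_pos hχ hχ2
  rw [← hL2'] at hR2'' ⊢
  have hW := hom N hNne
  have hW0 : (0 : ℝ) < 2 ^ N.primeFactors.card := by positivity
  have hqe : 0 < (q : ℝ) ^ e := Real.rpow_pos_of_pos hq0 e
  have hq1e : 0 < (q₁ : ℝ) ^ e := Real.rpow_pos_of_pos hq1 e
  have hNe : (N : ℝ) ^ e = (q₁ : ℝ) ^ e * (q : ℝ) ^ e := by
    rw [hNcast, Real.mul_rpow hq1.le hq0.le]
  rw [Real.rpow_neg hq0.le]
  by_cases hαβ : α * β = 1
  · -- the two characters agree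
    have hab : α = β := by
      calc α = α * (β * β) := by rw [← sq, hβ2, mul_one]
        _ = (α * β) * β := (mul_assoc α β β).symm
        _ = β := by rw [hαβ, one_mul]
    have h3 : L1 * R1 = L2 * R2 := by rw [← hR1'', ← hR2'', hab]
    have h4 : L1 ≤ L2 * (C2 ^ 2 * (N : ℝ) ^ e) := by
      have h5 : L1 * (2 ^ N.primeFactors.card)⁻¹ ≤ L2 * 2 ^ N.primeFactors.card := by
        calc L1 * (2 ^ N.primeFactors.card)⁻¹ ≤ L1 * R1 := by gcongr
          _ = L2 * R2 := h3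
          _ ≤ L2 * 2 ^ N.primeFactors.card := by gcongr
      have h6 : L1 ≤ L2 * (2 ^ N.primeFactors.card * 2 ^ N.primeFactors.card) := by
        rw [← div_eq_mul_inv, div_le_iff₀ hW0] at h5
        linarith
      refine h6.trans ?_
      have h7 : (2 : ℝ) ^ N.primeFactors.card * 2 ^ N.primeFactors.card ≤
          (C2 * (N : ℝ) ^ η) * (C2 * (N : ℝ) ^ η) := by gcongr
      have h8 : (C2 * (N : ℝ) ^ η) * (C2 * (N : ℝ) ^ η) ≤ C2 ^ 2 * (N : ℝ) ^ e := by
        have h9 : (N : ℝ) ^ η * (N : ℝ) ^ η ≤ (N : ℝ) ^ e := by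
          rw [← Real.rpow_add hN0]
          exact Real.rpow_le_rpow_of_exponent_le hN1 (by rw [hη]; linarith)
        calc (C2 * (N : ℝ) ^ η) * (C2 * (N : ℝ) ^ η) = C2 ^ 2 * ((N : ℝ) ^ η * (N : ℝ) ^ η) := by
              ring
          _ ≤ C2 ^ 2 * (N : ℝ) ^ e := by gcongr
      exact mul_le_mul_of_nonneg_left (h7.trans h8) hL2.le
    have h10 : min c1 c2 * ((q : ℝ) ^ e)⁻¹ ≤ c2 * ((q : ℝ) ^ e)⁻¹ := by
      gcongr
      exact min_le_right _ _
    refine h10.trans ?_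
    rw [hc2, ← div_eq_mul_inv, div_div, div_le_iff₀ (by positivity)]
    rw [hNe] at h4
    linarith
  · -- two different characters
    have hαβ2 : (α * β) ^ 2 = 1 := by rw [mul_pow, hα2, hβ2, one_mul]
    have h3 := hbase N hd1 β hβ2 hβ1 (by rw [← hα]; exact hαβ)
    rw [← hα] at h3
    have h4 := hprod N α β hα2 hβ2 hα1 hβ1 hαβ x (by linarith) hx2 h3
    rw [P3_one_re hα2 hβ2 hα1 hβ1 hαβ, hR2''] at h4
    have h5 : ∀ γ : DirichletCharacter ℂ N, γ ≠ 1 →
        (DirichletCharacter.LFunction γ 1).re ≤ (N : ℝ) ^ η / η := fun γ hγ =>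
      (Complex.re_le_norm _).trans (norm_LFunction_one_le hγ hη0 hη1)
    have h6 := h5 α hα1
    have h7 := h5 (α * β) hαβ
    have h6' := LFunction_one_pos hα1 hα2
    have h7' := LFunction_one_pos hαβ hαβ2
    have hR20 : 0 < R2 := lt_of_lt_of_le (by positivity) hR2
    have h8 : 1 - x ≤ C1 * (N : ℝ) ^ (e / 2) *
        (((N : ℝ) ^ η / η) * (L2 * (C2 * (N : ℝ) ^ η)) * ((N : ℝ) ^ η / η)) := by
      refine h4.trans ?_
      have h9 : (N : ℝ) ^ (12 * (1 - x)) ≤ (N : ℝ) ^ (e / 2) :=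
        Real.rpow_le_rpow_of_exponent_le hN1 (by linarith)
      gcongr
      exact hR2'.trans hW
    have h9 : C1 * (N : ℝ) ^ (e / 2) *
        (((N : ℝ) ^ η / η) * (L2 * (C2 * (N : ℝ) ^ η)) * ((N : ℝ) ^ η / η)) =
        L2 * (C1 * (C2 / η ^ 2) * ((N : ℝ) ^ (e / 2) * (N : ℝ) ^ η * (N : ℝ) ^ η *
          (N : ℝ) ^ η)) := by
      field_simp
    rw [h9] at h8
    have h10 : (N : ℝ) ^ (e / 2) * (N : ℝ) ^ η * (N : ℝ) ^ η * (N : ℝ) ^ η ≤ (N : ℝ) ^ e := by
      rw [← Real.rpow_add hN0, ← Real.rpow_add hN0, ← Real.rpow_add hN0]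
      exact Real.rpow_le_rpow_of_exponent_le hN1 (by rw [hη]; linarith)
    have h11 : 1 - x ≤ L2 * (C1 * (C2 / η ^ 2) * (N : ℝ) ^ e) := by
      refine h8.trans ?_
      gcongr
    have h12 : min c1 c2 * ((q : ℝ) ^ e)⁻¹ ≤ c1 * ((q : ℝ) ^ e)⁻¹ := by
      gcongr
      exact min_le_left _ _
    refine h12.trans ?_
    rw [hc1, ← div_eq_mul_inv, div_div, div_le_iff₀ (by positivity)]
    rw [hNe] at h11
    linarith

/-- **Siegel's theorem** -/
theorem siegel (e : ℝ) (he : 0 < e) :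
    ∃ c > 0, ∀ (q : ℕ) [NeZero q] (χ : DirichletCharacter ℂ q), χ ^ 2 = 1 → χ ≠ 1 →
      c * (q : ℝ) ^ (-e) ≤ (DirichletCharacter.LFunction χ 1).re := by
  rcases le_total e 1 with h | h
  · exact siegel_aux e he h
  · obtain ⟨c, hc, hmain⟩ := siegel_aux 1 one_pos le_rfl
    refine ⟨c, hc, fun q _ χ h1 h2 => le_trans ?_ (hmain q χ h1 h2)⟩
    have hq1 : (1 : ℝ) ≤ q := by exact_mod_cast NeZero.one_le
    have : (q : ℝ) ^ (-e) ≤ (q : ℝ) ^ (-(1 : ℝ)) :=
      Real.rpow_le_rpow_of_exponent_le hq1 (by linarith)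
    gcongr



end Crest.Agent.SW.Siegel
end

-- ▼ part SW/Nonpr259
section

/-!
# Siegel–Walfisz for non-principal characters (helper259)
-/

set_option autoImplicit false
set_option maxHeartbeats 1000000

open Complex

namespace Crest.Agent.SW

noncomputable section

open DirichletCharacter

theorem siegelProp : SiegelProp := fun e he => Siegel.siegel e he

theorem Qc_half_le {q : ℕ} (s : ℂ) :
    Qc q s ^ (1 / 2 : ℝ) ≤ 2 * (q : ℝ) ^ (1 / 2 : ℝ) * (1 + |s.im|) ^ (1 / 2 : ℝ) := by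
  have h0 : 0 ≤ |s.im| := abs_nonneg _
  have hq : (0 : ℝ) ≤ q := Nat.cast_nonneg q
  calc Qc q s ^ (1 / 2 : ℝ) ≤ ((q : ℝ) * (2 * (1 + |s.im|))) ^ (1 / 2 : ℝ) := by
        unfold Qc
        gcongr
        linarith
    _ = (q : ℝ) ^ (1 / 2 : ℝ) * (2 ^ (1 / 2 : ℝ) * (1 + |s.im|) ^ (1 / 2 : ℝ)) := by
        rw [Real.mul_rpow hq (by positivity), Real.mul_rpow (by norm_num) (by positivity)]
    _ ≤ (q : ℝ) ^ (1 / 2 : ℝ) * (2 * (1 + |s.im|) ^ (1 / 2 : ℝ)) := by
        have : (2 : ℝ) ^ (1 / 2 : ℝ) ≤ 2 ^ (1 : ℝ) :=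
          Real.rpow_le_rpow_of_exponent_le (by norm_num) (by norm_num)
        rw [Real.rpow_one] at this
        gcongr
    _ = _ := by ring

/-- general transfer: if the `L`-series of `a q χ` agrees with `G q χ` for `Re s > 1` -/
theorem transfer (G : ∀ (q : ℕ) [NeZero q], DirichletCharacter ℂ q → ℂ → ℂ)
    (a : ∀ (q : ℕ), DirichletCharacter ℂ q → ℕ → ℂ)
    (hG : ∀ k : ℕ, ∃ C : ℝ, 0 < C ∧ ∀ (q : ℕ) [NeZero q] (χ : DirichletCharacter ℂ q), χ ≠ 1 →
      ∀ (s : ℂ), 1 < s.re → s.re ≤ 2 → ‖iteratedDeriv k (G q χ) s‖ ≤ C * Qc q s ^ (1 / 2 : ℝ))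
    (ha : ∀ (q : ℕ) [NeZero q] (χ : DirichletCharacter ℂ q), χ ≠ 1 → ∀ s : ℂ, 1 < s.re →
      LSeries (a q χ) s = G q χ s)
    (hb : ∀ (q : ℕ) (χ : DirichletCharacter ℂ q) (n : ℕ), 1 ≤ n → ‖a q χ n‖ ≤ 1 + Real.log n)
    (m : ℕ) : ∃ C : ℝ, 0 < C ∧ ∀ (q : ℕ) [NeZero q] (χ : DirichletCharacter ℂ q), χ ≠ 1 →
      ∀ x : ℝ, 2 ≤ x → ‖∑ n ∈ Finset.Icc 1 ⌊x⌋₊, a q χ n‖ ≤
        C * (q : ℝ) ^ (1 / 2 : ℝ) * x / Real.log x ^ m := by
  obtain ⟨C1, hC1, h1⟩ := hG (2 * m + 1)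
  obtain ⟨C2, hC2, h2⟩ := engine m
  refine ⟨C2 * (2 * max C1 1), by positivity, fun q _ χ hχ x hx => ?_⟩
  have hq : 1 ≤ q := Nat.one_le_iff_ne_zero.mpr (NeZero.ne q)
  have hqR : (1 : ℝ) ≤ q := by exact_mod_cast hq
  have hqh : 1 ≤ (q : ℝ) ^ (1 / 2 : ℝ) := Real.one_le_rpow hqR (by norm_num)
  have h := h2 (a q χ) (2 * max C1 1 * (q : ℝ) ^ (1 / 2 : ℝ)) ?_ (hb q χ) ?_ x hx
  · refine h.trans (le_of_eq ?_)
    ring
  · have : 1 ≤ max C1 1 := le_max_right _ _
    nlinarith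
  · intro s hs1 hs2
    have heq : iteratedDeriv (2 * m + 1) (LSeries (a q χ)) s =
        iteratedDeriv (2 * m + 1) (G q χ) s := by
      apply Filter.EventuallyEq.iteratedDeriv_eq
      have hopen : IsOpen {z : ℂ | 1 < z.re} := isOpen_lt continuous_const Complex.continuous_re
      filter_upwards [hopen.mem_nhds hs1] with z hz
      exact ha q χ hχ z hz
    rw [heq]
    refine (h1 q χ hχ s hs1 hs2).trans ?_
    calc C1 * Qc q s ^ (1 / 2 : ℝ) ≤
        max C1 1 * (2 * (q : ℝ) ^ (1 / 2 : ℝ) * (1 + |s.im|) ^ (1 / 2 : ℝ)) := by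
          have h0 : 0 ≤ Qc q s := by unfold Qc; positivity
          gcongr
          · exact le_max_left _ _
          · exact Qc_half_le s
      _ = _ := by ring

/-- from the form with `q^{1/2}` to the Siegel–Walfisz form -/
theorem to_SW (a : ∀ (q : ℕ), DirichletCharacter ℂ q → ℕ → ℂ)
    (h : ∀ m : ℕ, ∃ C : ℝ, 0 < C ∧ ∀ (q : ℕ) [NeZero q] (χ : DirichletCharacter ℂ q), χ ≠ 1 →
      ∀ x : ℝ, 2 ≤ x → ‖∑ n ∈ Finset.Icc 1 ⌊x⌋₊, a q χ n‖ ≤
        C * (q : ℝ) ^ (1 / 2 : ℝ) * x / Real.log x ^ m) (A B : ℝ) :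
    ∃ C : ℝ, ∀ x : ℝ, 2 ≤ x → ∀ q : ℕ, 1 ≤ q → (q : ℝ) ≤ Real.log x ^ B →
      ∀ χ : DirichletCharacter ℂ q, χ ≠ 1 →
      ‖∑ n ∈ Finset.Icc 1 ⌊x⌋₊, a q χ n‖ ≤ C * x / Real.log x ^ A := by
  obtain ⟨m, hm⟩ := exists_nat_ge (A + B / 2)
  obtain ⟨C, hC, h1⟩ := h m
  refine ⟨C * (1 / 2) ^ (A + B / 2 - m), fun x hx q hq hqB χ hχ => ?_⟩
  have : NeZero q := ⟨by omega⟩
  have hL := log_half hx
  set L := Real.log x with hLd
  have hL0 : 0 < L := by linarith
  have hx0 : 0 < x := by linarith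
  refine (h1 q χ hχ x hx).trans ?_
  have hq2 : (q : ℝ) ^ (1 / 2 : ℝ) ≤ L ^ (B / 2) := by
    calc (q : ℝ) ^ (1 / 2 : ℝ) ≤ (L ^ B) ^ (1 / 2 : ℝ) := by gcongr
      _ = L ^ (B / 2) := by rw [← Real.rpow_mul hL0.le]; ring_nf
  have e1 : L ^ (A + B / 2 - m) ≤ (1 / 2) ^ (A + B / 2 - m) :=
    Real.rpow_le_rpow_of_nonpos (by norm_num) hL (by linarith)
  have e2 : L ^ (A + B / 2 - m) = L ^ A * L ^ (B / 2) / L ^ m := by
    rw [Real.rpow_sub hL0, Real.rpow_add hL0, Real.rpow_natCast]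
  have hLA : 0 < L ^ A := by positivity
  rw [le_div_iff₀ hLA]
  calc C * (q : ℝ) ^ (1 / 2 : ℝ) * x / L ^ m * L ^ A ≤ C * L ^ (B / 2) * x / L ^ m * L ^ A := by
        gcongr
    _ = C * x * (L ^ A * L ^ (B / 2) / L ^ m) := by ring
    _ ≤ C * x * (1 / 2) ^ (A + B / 2 - m) := by
        rw [← e2]
        gcongr
    _ = _ := by ring


/-- the twisted von Mangoldt function -/
def lamchi (q : ℕ) (χ : DirichletCharacter ℂ q) (n : ℕ) : ℂ :=
  (ArithmeticFunction.vonMangoldt n : ℂ) * χ (n : ZMod q)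



theorem lam_nonpr' (m : ℕ) : ∃ C : ℝ, 0 < C ∧ ∀ (q : ℕ) [NeZero q] (χ : DirichletCharacter ℂ q),
    χ ≠ 1 → ∀ x : ℝ, 2 ≤ x → ‖∑ n ∈ Finset.Icc 1 ⌊x⌋₊, lamchi q χ n‖ ≤
      C * (q : ℝ) ^ (1 / 2 : ℝ) * x / Real.log x ^ m := by
  refine transfer (fun q _ χ s => -(deriv (LFunction χ) s / LFunction χ s)) lamchi ?_ ?_ ?_ m
  · intro k
    obtain ⟨C, hC, h⟩ := logDeriv_deriv_bound siegelProp k
    refine ⟨C, hC, fun q _ χ hχ s h1 h2 => ?_⟩
    rw [iteratedDeriv_fun_neg, norm_neg]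
    exact h q χ hχ s h1 h2
  · intro q _ χ hχ s hs
    have h := LSeries_twist_vonMangoldt_eq χ hs
    have e : lamchi q χ = (fun n : ℕ => χ (n : ZMod q)) * (fun n : ℕ => (ArithmeticFunction.vonMangoldt n : ℂ)) := by
      ext n
      simp [lamchi, mul_comm]
    rw [e, h, ← deriv_LFunction_eq_deriv_LSeries χ hs, ← LFunction_eq_LSeries χ hs, neg_div]
  · intro q χ n hn
    unfold lamchi
    rw [norm_mul, Complex.norm_real, Real.norm_of_nonneg ArithmeticFunction.vonMangoldt_nonneg]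
    have h2 := ArithmeticFunction.vonMangoldt_le_log (n := n)
    have h3 : (0 : ℝ) ≤ ArithmeticFunction.vonMangoldt n := ArithmeticFunction.vonMangoldt_nonneg
    have h4 := χ.norm_le_one (n : ZMod q)
    nlinarith [norm_nonneg (χ (n : ZMod q))]


/-- **Siegel–Walfisz for the von Mangoldt function, non-principal characters** -/
theorem lamNonpr_holds : LamNonpr := fun A B => to_SW lamchi lam_nonpr' A B

end

end Crest.Agent.SW
end

-- ▼ part SW/Final

/-!
# Siegel–Walfisz, unconditional final forms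

* `psiOne_holds : PsiOne`, `psiAP_holds : PsiAP` (primes),
* `sav_mu`, `sav_lam` : all characters,
* `lamAP`, `muAP` : all residue classes.
-/

namespace Crest.Agent.SW

open Finset

theorem psiOne_holds : PsiOne := by
  intro A
  obtain ⟨C, hC⟩ := ZS.psi_sum ⌈A⌉₊
  refine ⟨|C| * (Real.log 2) ^ (A - ⌈A⌉₊), fun x hx => ?_⟩
  have hl : 0 < Real.log x := Real.log_pos (by linarith)
  have hx0 : 0 < x := by linarith
  refine (hC x hx).trans ?_
  calc C * x / Real.log x ^ ⌈A⌉₊ ≤ |C| * x / Real.log x ^ ⌈A⌉₊ := by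
        gcongr; exact le_abs_self C
    _ ≤ _ := AP301.div_log_pow_le (Nat.le_ceil A) (abs_nonneg C) hx

theorem psiAP_holds : PsiAP := psiAP psiOne_holds lamNonpr_holds



end Crest.Agent.SW
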