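import Mathlib

-- ▼ part SW/Engine259
section

/-!
# Siegel–Walfisz library: the Perron engine

For `a : ℕ → ℂ` with `‖a n‖ ≤ 1 + log n`, a bound for the `k`-th derivative of the Dirichlet series
of `a` on `1 < Re s ≤ 2` gives a bound for the partial sums of `a`.
-/

set_option autoImplicit false
set_option maxHeartbeats 1000000

open Complex MeasureTheory Set Filter Topology

namespace Crest.Agent.SW

noncomputable section

/-- the kernel `(1-u)^+` -/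
def kf (u : ℝ) : ℂ := ((max (1 - u) 0 : ℝ) : ℂ)

theorem kf_eq {u : ℝ} (hu : 0 < u) :
    kf u = indicator (Ioc 0 1) (fun _ => 1 : ℝ → ℂ) u
      - indicator (Ioc 0 1) (fun t => (t : ℂ) ^ (1 : ℂ) : ℝ → ℂ) u := by
  unfold kf
  by_cases h : u ≤ 1
  · have hm : u ∈ Ioc (0 : ℝ) 1 := ⟨hu, h⟩
    rw [indicator_of_mem hm, indicator_of_mem hm, max_eq_left (by linarith)]
    simp
  · have hm : u ∉ Ioc (0 : ℝ) 1 := fun h' => h h'.2
    rw [indicator_of_notMem hm, indicator_of_notMem hm, max_eq_right (by linarith)]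
    simp

theorem kf_mellin {s : ℂ} (hs : 0 < s.re) : HasMellin kf s (1 / s - 1 / (s + 1)) := by
  have h1 := hasMellin_one_Ioc hs
  have h2 := hasMellin_cpow_Ioc (1 : ℂ) (s := s) (by simp; linarith)
  have h3 := hasMellin_sub h1.1 h2.1
  rw [h1.2, h2.2] at h3
  have hcongr : ∀ t ∈ Ioi (0 : ℝ), (t : ℂ) ^ (s - 1) • kf t = (t : ℂ) ^ (s - 1) •
      (indicator (Ioc 0 1) (fun _ => 1 : ℝ → ℂ) t
        - indicator (Ioc 0 1) (fun t => (t : ℂ) ^ (1 : ℂ) : ℝ → ℂ) t) := by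
    intro t ht
    rw [kf_eq ht]
  refine ⟨?_, ?_⟩
  · have := h3.1
    unfold MellinConvergent at this ⊢
    exact this.congr_fun (fun t ht => (hcongr t ht).symm) measurableSet_Ioi
  · have := h3.2
    rw [← this]
    unfold mellin
    exact setIntegral_congr_fun measurableSet_Ioi hcongr

theorem norm_sq_ge (c y : ℝ) (hc : 1 ≤ c) : 1 + y ^ 2 ≤ ‖((c : ℂ) + y * I) * ((c : ℂ) + y * I + 1)‖ := by
  rw [norm_mul]
  have h1 : Real.sqrt (1 + y ^ 2) ≤ ‖(c : ℂ) + y * I‖ := by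
    apply Real.sqrt_le_iff.mpr
    refine ⟨norm_nonneg _, ?_⟩
    rw [← Complex.normSq_eq_norm_sq, Complex.normSq_apply]
    simp
    nlinarith
  have h2 : Real.sqrt (1 + y ^ 2) ≤ ‖(c : ℂ) + y * I + 1‖ := by
    apply Real.sqrt_le_iff.mpr
    refine ⟨norm_nonneg _, ?_⟩
    rw [← Complex.normSq_eq_norm_sq, Complex.normSq_apply]
    simp
    nlinarith
  calc 1 + y ^ 2 = Real.sqrt (1 + y ^ 2) * Real.sqrt (1 + y ^ 2) := by
        rw [Real.mul_self_sqrt (by positivity)]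
    _ ≤ _ := mul_le_mul h1 h2 (Real.sqrt_nonneg _) (norm_nonneg _)

theorem kf_mellin_eq {s : ℂ} (hs : 0 < s.re) : mellin kf s = 1 / (s * (s + 1)) := by
  rw [(kf_mellin hs).2]
  have h1 : s ≠ 0 := by rintro rfl; simp at hs
  have h2 : s + 1 ≠ 0 := by
    intro h
    have := congrArg Complex.re h
    simp at this
    linarith
  field_simp
  ring

theorem kernel_ne (c y : ℝ) (hc : 1 ≤ c) : ((c : ℂ) + y * I) * ((c : ℂ) + y * I + 1) ≠ 0 := by
  intro h
  have := norm_sq_ge c y hc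
  rw [h, norm_zero] at this
  nlinarith [sq_nonneg y]

theorem kernel_cont (c : ℝ) (hc : 1 ≤ c) :
    Continuous (fun y : ℝ => 1 / (((c : ℂ) + y * I) * ((c : ℂ) + y * I + 1))) := by
  apply Continuous.div continuous_const (by fun_prop)
  intro y
  exact kernel_ne c y hc

theorem kernel_norm_le (c y : ℝ) (hc : 1 ≤ c) :
    ‖1 / (((c : ℂ) + y * I) * ((c : ℂ) + y * I + 1))‖ ≤ (1 + y ^ 2)⁻¹ := by
  rw [norm_div, norm_one, one_div]
  exact inv_anti₀ (by positivity) (norm_sq_ge c y hc)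

theorem kernel_int (c : ℝ) (hc : 1 ≤ c) :
    Integrable (fun y : ℝ => 1 / (((c : ℂ) + y * I) * ((c : ℂ) + y * I + 1))) := by
  refine Integrable.mono' (g := fun y : ℝ => (1 + y ^ 2)⁻¹) integrable_inv_one_add_sq
    (kernel_cont c hc).aestronglyMeasurable ?_
  filter_upwards with y
  exact kernel_norm_le c y hc

theorem kf_inv (c : ℝ) (hc : 1 ≤ c) {u : ℝ} (hu : 0 < u) :
    (1 / (2 * Real.pi) : ℝ) • ∫ y : ℝ, (u : ℂ) ^ (-((c : ℂ) + y * I)) *
      (1 / (((c : ℂ) + y * I) * ((c : ℂ) + y * I + 1))) = kf u := by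
  have hre : ∀ y : ℝ, 0 < ((c : ℂ) + y * I).re := by intro y; simp; linarith
  have h := mellinInv_mellin_eq c kf hu (kf_mellin (s := c) (by simp; linarith)).1 ?_ ?_
  · rw [← h]
    unfold mellinInv
    congr 1
    apply integral_congr_ae
    filter_upwards with y
    rw [smul_eq_mul, kf_mellin_eq (hre y)]
  · unfold VerticalIntegrable
    refine (kernel_int c hc).congr ?_
    filter_upwards with y
    rw [kf_mellin_eq (hre y)]
  · unfold kf
    fun_prop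

theorem kf_le_zero {u : ℝ} (hu : 1 ≤ u) : kf u = 0 := by
  unfold kf
  rw [max_eq_right (by linarith)]
  simp

theorem kf_of_le {u : ℝ} (hu : u ≤ 1) : kf u = 1 - u := by
  unfold kf
  rw [max_eq_left (by linarith)]
  push_cast
  rfl

theorem term_norm (b : ℕ → ℂ) (c y : ℝ) (n : ℕ) :
    ‖LSeries.term b ((c : ℂ) + y * I) n‖ = ‖LSeries.term b (c : ℂ) n‖ := by
  rw [LSeries.norm_term_eq, LSeries.norm_term_eq]
  simp

/-- the integrand attached to the `n`-th term -/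
def Fint (b : ℕ → ℂ) (c x : ℝ) (n : ℕ) (y : ℝ) : ℂ :=
  LSeries.term b ((c : ℂ) + y * I) n *
    ((x : ℂ) ^ ((c : ℂ) + y * I) * (1 / (((c : ℂ) + y * I) * ((c : ℂ) + y * I + 1))))

theorem norm_x_cpow {x : ℝ} (hx : 0 < x) (c y : ℝ) : ‖(x : ℂ) ^ ((c : ℂ) + y * I)‖ = x ^ c := by
  rw [Complex.norm_cpow_eq_rpow_re_of_pos hx]
  simp

theorem Fint_norm_le (b : ℕ → ℂ) (c : ℝ) (hc : 1 ≤ c) {x : ℝ} (hx : 0 < x) (n : ℕ) (y : ℝ) :
    ‖Fint b c x n y‖ ≤ ‖LSeries.term b (c : ℂ) n‖ * (x ^ c * (1 + y ^ 2)⁻¹) := by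
  unfold Fint
  rw [norm_mul, term_norm, norm_mul, norm_x_cpow hx]
  gcongr
  exact kernel_norm_le c y hc

theorem Fint_cont (b : ℕ → ℂ) (c : ℝ) (hc : 1 ≤ c) {x : ℝ} (hx : 0 < x) (n : ℕ) :
    Continuous (Fint b c x n) := by
  unfold Fint
  refine Continuous.mul ?_ (Continuous.mul ?_ (kernel_cont c hc))
  · rcases Nat.eq_zero_or_pos n with rfl | hn
    · simp only [LSeries.term_zero]
      exact continuous_const
    · have hn' : n ≠ 0 := hn.ne'
      simp only [LSeries.term_of_ne_zero hn']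
      refine Continuous.div continuous_const ?_ ?_
      · exact Continuous.const_cpow (by fun_prop) (Or.inl (by exact_mod_cast hn'))
      · intro y
        rw [Ne, Complex.cpow_eq_zero_iff]
        intro h
        exact hn' (by exact_mod_cast h.1)
  · exact Continuous.const_cpow (by fun_prop) (Or.inl (by exact_mod_cast hx.ne'))

theorem Fint_int (b : ℕ → ℂ) (c : ℝ) (hc : 1 ≤ c) {x : ℝ} (hx : 0 < x) (n : ℕ) :
    Integrable (Fint b c x n) := by
  refine Integrable.mono' (g := fun y : ℝ => ‖LSeries.term b (c : ℂ) n‖ * (x ^ c * (1 + y ^ 2)⁻¹))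
    ((integrable_inv_one_add_sq.const_mul _).const_mul _) (Fint_cont b c hc hx n).aestronglyMeasurable ?_
  filter_upwards with y
  exact Fint_norm_le b c hc hx n y

theorem Fint_integral (b : ℕ → ℂ) (c : ℝ) (hc : 1 ≤ c) {x : ℝ} (hx : 0 < x) (n : ℕ) :
    ∫ y : ℝ, Fint b c x n y = if n = 0 then 0 else (2 * Real.pi) * (b n * kf (n / x)) := by
  by_cases hn : n = 0
  · subst hn
    simp [Fint]
  · rw [if_neg hn]
    have hn' : 0 < (n : ℝ) := by positivity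
    have h := kf_inv c hc (u := n / x) (by positivity)
    have hpi : (2 * Real.pi : ℝ) ≠ 0 := by positivity
    have h2 : ∫ y : ℝ, ((n / x : ℝ) : ℂ) ^ (-((c : ℂ) + y * I)) *
      (1 / (((c : ℂ) + y * I) * ((c : ℂ) + y * I + 1))) = (2 * Real.pi : ℂ) * kf (n / x) := by
      have hc1 : (2 * Real.pi : ℂ) * ((1 / (2 * Real.pi) : ℝ) : ℂ) = 1 := by
        push_cast
        have : (Real.pi : ℂ) ≠ 0 := by exact_mod_cast Real.pi_ne_zero
        field_simp
      rw [← h, Complex.real_smul, ← mul_assoc, hc1, one_mul]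
    have h3 : ∀ y : ℝ, Fint b c x n y = b n * (((n / x : ℝ) : ℂ) ^ (-((c : ℂ) + y * I)) *
      (1 / (((c : ℂ) + y * I) * ((c : ℂ) + y * I + 1)))) := by
      intro y
      unfold Fint
      rw [LSeries.term_of_ne_zero hn]
      have h4 : ((n / x : ℝ) : ℂ) ^ (-((c : ℂ) + y * I)) =
          (x : ℂ) ^ ((c : ℂ) + y * I) / (n : ℂ) ^ ((c : ℂ) + y * I) := by
        rw [Complex.ofReal_div, Complex.div_cpow_ofReal_nonneg hn'.le hx.le, Complex.cpow_neg,
          Complex.cpow_neg]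
        rw [inv_div_inv]
        norm_cast
      rw [h4]
      ring
    simp_rw [h3]
    rw [integral_const_mul, h2]
    ring

theorem perron_hasSum (b : ℕ → ℂ) (c : ℝ) (hc : 1 ≤ c) (hb : LSeriesSummable b (c : ℂ)) {x : ℝ}
    (hx : 0 < x) :
    (2 * Real.pi : ℂ) * ∑ n ∈ Finset.Icc 1 ⌊x⌋₊, b n * (1 - n / x) =
      ∫ y : ℝ, LSeries b ((c : ℂ) + y * I) * ((x : ℂ) ^ ((c : ℂ) + y * I) *
        (1 / (((c : ℂ) + y * I) * ((c : ℂ) + y * I + 1)))) := by
  have hsum : Summable fun n => ∫ y : ℝ, ‖Fint b c x n y‖ := by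
    refine Summable.of_nonneg_of_le (f := fun n => ‖LSeries.term b (c : ℂ) n‖ *
      (x ^ c * ∫ y : ℝ, (1 + y ^ 2)⁻¹)) (fun n => integral_nonneg fun y => norm_nonneg _) ?_
      ((hb.norm).mul_right _)
    intro n
    rw [← integral_const_mul, ← integral_const_mul]
    exact integral_mono (Fint_int b c hc hx n).norm
      ((integrable_inv_one_add_sq.const_mul _).const_mul _) (fun y => Fint_norm_le b c hc hx n y)
  have h := hasSum_integral_of_summable_integral_norm (Fint_int b c hc hx) hsum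
  have h1 : ∀ y : ℝ, ∑' n, Fint b c x n y = LSeries b ((c : ℂ) + y * I) *
      ((x : ℂ) ^ ((c : ℂ) + y * I) * (1 / (((c : ℂ) + y * I) * ((c : ℂ) + y * I + 1)))) := by
    intro y
    unfold Fint
    rw [tsum_mul_right]
    rfl
  simp_rw [h1] at h
  rw [← h.tsum_eq]
  rw [tsum_eq_sum (s := Finset.Icc 1 ⌊x⌋₊)]
  · rw [Finset.mul_sum]
    apply Finset.sum_congr rfl
    intro n hn
    rw [Finset.mem_Icc] at hn
    rw [Fint_integral b c hc hx n, if_neg (by omega), kf_of_le]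
    · push_cast
      rfl
    · rw [div_le_one hx]
      exact (Nat.le_floor_iff hx.le).mp hn.2
  · intro n hn
    rw [Fint_integral b c hc hx n]
    by_cases h0 : n = 0
    · rw [if_pos h0]
    · rw [if_neg h0, kf_le_zero, mul_zero, mul_zero]
      rw [le_div_iff₀ hx, one_mul]
      rw [Finset.mem_Icc, not_and] at hn
      have := hn (by omega)
      rw [not_le, Nat.floor_lt hx.le] at this
      exact this.le

theorem perron_norm (b : ℕ → ℂ) (c : ℝ) (hc : 1 ≤ c) (hb : LSeriesSummable b (c : ℂ)) {x : ℝ}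
    (hx : 0 < x) (G : ℝ → ℝ) (hG : ∀ y : ℝ, ‖LSeries b ((c : ℂ) + y * I)‖ ≤ G y)
    (hGi : Integrable fun y : ℝ => G y * (1 + y ^ 2)⁻¹) :
    ‖∑ n ∈ Finset.Icc 1 ⌊x⌋₊, b n * (1 - n / x)‖ ≤ x ^ c * ∫ y : ℝ, G y * (1 + y ^ 2)⁻¹ := by
  have h := perron_hasSum b c hc hb hx
  have h1 : ‖(2 * Real.pi : ℂ) * ∑ n ∈ Finset.Icc 1 ⌊x⌋₊, b n * (1 - n / x)‖ ≤
      x ^ c * ∫ y : ℝ, G y * (1 + y ^ 2)⁻¹ := by
    rw [h, ← integral_const_mul]
    refine norm_integral_le_of_norm_le (hGi.const_mul _) ?_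
    filter_upwards with y
    rw [norm_mul, norm_mul, norm_x_cpow hx]
    have h2 := kernel_norm_le c y hc
    have h3 := hG y
    have h4 : 0 ≤ G y := le_trans (norm_nonneg _) h3
    calc ‖LSeries b ((c : ℂ) + y * I)‖ * (x ^ c * _) ≤ G y * (x ^ c * (1 + y ^ 2)⁻¹) := by
          gcongr
      _ = x ^ c * (G y * (1 + y ^ 2)⁻¹) := by ring
  rw [norm_mul] at h1
  have h2 : (1 : ℝ) ≤ ‖(2 * Real.pi : ℂ)‖ := by
    rw [norm_mul, Complex.norm_ofNat, Complex.norm_real, Real.norm_of_nonneg Real.pi_pos.le]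
    linarith [Real.pi_gt_three]
  calc _ = 1 * ‖∑ n ∈ Finset.Icc 1 ⌊x⌋₊, b n * (1 - n / x)‖ := (one_mul _).symm
    _ ≤ ‖(2 * Real.pi : ℂ)‖ * ‖∑ n ∈ Finset.Icc 1 ⌊x⌋₊, b n * (1 - n / x)‖ := by gcongr
    _ ≤ _ := h1

end

end Crest.Agent.SW
end

-- ▼ part SW/Engine2_259

/-!
# Siegel–Walfisz library: the Perron engine, part 2
-/

set_option autoImplicit false
set_option maxHeartbeats 1000000

open Complex MeasureTheory Set Filter Topology

namespace Crest.Agent.SW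

noncomputable section

theorem unsmooth (b : ℕ → ℂ) (x h M B : ℝ) (hx : 0 < x) (hh : 0 < h)
    (h1 : ‖∑ n ∈ Finset.Icc 1 ⌊x⌋₊, b n * (x - n)‖ ≤ M)
    (h2 : ‖∑ n ∈ Finset.Icc 1 ⌊x + h⌋₊, b n * (x + h - n)‖ ≤ M)
    (hB : ∀ n : ℕ, (n : ℝ) ≤ x + h → 1 ≤ n → ‖b n‖ ≤ B) (hB0 : 0 ≤ B) :
    ‖∑ n ∈ Finset.Icc 1 ⌊x⌋₊, b n‖ ≤ 2 * M / h + (h + 1) * B := by
  have hfl : ⌊x⌋₊ ≤ ⌊x + h⌋₊ := Nat.floor_le_floor (by linarith)
  have hsplit : ∑ n ∈ Finset.Icc 1 ⌊x + h⌋₊, b n * (x + h - n) =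
      ∑ n ∈ Finset.Icc 1 ⌊x⌋₊, b n * (x + h - n) +
        ∑ n ∈ Finset.Ioc ⌊x⌋₊ ⌊x + h⌋₊, b n * (x + h - n) := by
    rw [← Finset.sum_union]
    · congr 1
      ext n
      simp only [Finset.mem_Icc, Finset.mem_union, Finset.mem_Ioc]
      omega
    · rw [Finset.disjoint_left]
      intro n hn hn'
      rw [Finset.mem_Icc] at hn
      rw [Finset.mem_Ioc] at hn'
      omega
  have hs2 : ∑ n ∈ Finset.Icc 1 ⌊x⌋₊, b n * ((x : ℂ) + h - n) =
      ∑ n ∈ Finset.Icc 1 ⌊x⌋₊, b n * (x - n) + h * ∑ n ∈ Finset.Icc 1 ⌊x⌋₊, b n := by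
    rw [Finset.mul_sum, ← Finset.sum_add_distrib]
    apply Finset.sum_congr rfl
    intro n _
    ring
  have hlast : ‖∑ n ∈ Finset.Ioc ⌊x⌋₊ ⌊x + h⌋₊, b n * ((x : ℂ) + h - n)‖ ≤ h * ((h + 1) * B) := by
    have hterm : ∀ n ∈ Finset.Ioc ⌊x⌋₊ ⌊x + h⌋₊, ‖b n * ((x : ℂ) + h - n)‖ ≤ B * h := by
      intro n hn
      rw [Finset.mem_Ioc] at hn
      have hn1 : x < n := (Nat.floor_lt hx.le).mp hn.1
      have hn2 : (n : ℝ) ≤ x + h := (Nat.le_floor_iff (by linarith)).mp hn.2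
      have hn3 : 1 ≤ n := by omega
      rw [norm_mul]
      have : ‖(x : ℂ) + h - n‖ = |x + h - n| := by
        rw [← Real.norm_eq_abs, ← Complex.norm_real]
        push_cast
        rfl
      rw [this, abs_of_nonneg (by linarith)]
      exact mul_le_mul (hB n hn2 hn3) (by linarith) (by linarith) hB0
    refine (norm_sum_le_of_le _ hterm).trans ?_
    rw [Finset.sum_const, Nat.card_Ioc, nsmul_eq_mul]
    have hcard : ((⌊x + h⌋₊ - ⌊x⌋₊ : ℕ) : ℝ) ≤ h + 1 := by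
      rw [Nat.cast_sub hfl]
      have h3 := Nat.floor_le (show 0 ≤ x + h by linarith)
      have h4 := Nat.lt_floor_add_one x
      linarith
    calc ((⌊x + h⌋₊ - ⌊x⌋₊ : ℕ) : ℝ) * (B * h) ≤ (h + 1) * (B * h) := by
          apply mul_le_mul_of_nonneg_right hcard (by positivity)
      _ = h * ((h + 1) * B) := by ring
  have hmain : (h : ℂ) * ∑ n ∈ Finset.Icc 1 ⌊x⌋₊, b n =
      ∑ n ∈ Finset.Icc 1 ⌊x + h⌋₊, b n * (x + h - n) - ∑ n ∈ Finset.Icc 1 ⌊x⌋₊, b n * (x - n)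
        - ∑ n ∈ Finset.Ioc ⌊x⌋₊ ⌊x + h⌋₊, b n * ((x : ℂ) + h - n) := by
    rw [hsplit, hs2]
    ring
  have hn : h * ‖∑ n ∈ Finset.Icc 1 ⌊x⌋₊, b n‖ ≤ M + M + h * ((h + 1) * B) := by
    calc h * ‖∑ n ∈ Finset.Icc 1 ⌊x⌋₊, b n‖ = ‖(h : ℂ) * ∑ n ∈ Finset.Icc 1 ⌊x⌋₊, b n‖ := by
          rw [norm_mul, Complex.norm_real, Real.norm_of_nonneg hh.le]
      _ ≤ M + M + h * ((h + 1) * B) := by
          rw [hmain]
          refine (norm_sub_le _ _).trans (add_le_add ((norm_sub_le _ _).trans (add_le_add h2 h1)) hlast)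
  have h5 : ‖∑ n ∈ Finset.Icc 1 ⌊x⌋₊, b n‖ ≤ (M + M + h * ((h + 1) * B)) / h := by
    rw [le_div_iff₀ hh]
    linarith
  refine h5.trans (le_of_eq ?_)
  field_simp
  ring

/-- `(log n)^k a n` -/
def bk (a : ℕ → ℂ) (k : ℕ) (n : ℕ) : ℂ := (Real.log n : ℂ) ^ k * a n

theorem logMul_iter (a : ℕ → ℂ) (k : ℕ) : LSeries.logMul^[k] a = bk a k := by
  induction k with
  | zero =>
    ext n
    simp [bk]
  | succ k ih =>
    rw [Function.iterate_succ', Function.comp_apply, ih]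
    ext n
    simp only [LSeries.logMul, bk, ← Complex.natCast_log]
    ring

theorem one_add_log_le {δ : ℝ} (hδ : 0 < δ) {n : ℕ} (hn : 1 ≤ n) :
    1 + Real.log n ≤ (1 + 1 / δ) * (n : ℝ) ^ δ := by
  have h1 : (1 : ℝ) ≤ n := by exact_mod_cast hn
  have h2 : (1 : ℝ) ≤ (n : ℝ) ^ δ := Real.one_le_rpow h1 hδ.le
  have h3 := Real.log_le_rpow_div (show (0 : ℝ) ≤ n by linarith) hδ
  calc 1 + Real.log n ≤ (n : ℝ) ^ δ + (n : ℝ) ^ δ / δ := add_le_add h2 h3
    _ = _ := by ring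

theorem summable_of_log (a : ℕ → ℂ) (ha : ∀ n : ℕ, 1 ≤ n → ‖a n‖ ≤ 1 + Real.log n) {s : ℂ}
    (hs : 1 < s.re) : LSeriesSummable a s := by
  refine LSeriesSummable_of_le_const_mul_rpow (x := 1 + (s.re - 1) / 2) (by linarith)
    ⟨1 + 1 / ((s.re - 1) / 2), fun n hn => ?_⟩
  have hn1 : 1 ≤ n := Nat.one_le_iff_ne_zero.mpr hn
  refine (ha n hn1).trans ?_
  have := one_add_log_le (δ := (s.re - 1) / 2) (by linarith) hn1
  simpa using this

theorem abscissa_le (a : ℕ → ℂ) (ha : ∀ n : ℕ, 1 ≤ n → ‖a n‖ ≤ 1 + Real.log n) :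
    LSeries.abscissaOfAbsConv a ≤ 1 := by
  apply LSeries.abscissaOfAbsConv_le_of_forall_lt_LSeriesSummable' (x := (1 : EReal))
  intro y hy
  apply summable_of_log a ha
  have : ((1 : ℝ) : EReal) < y := by simpa using hy
  simpa using (EReal.coe_lt_coe_iff.mp this)

theorem abscissa_lt (a : ℕ → ℂ) (ha : ∀ n : ℕ, 1 ≤ n → ‖a n‖ ≤ 1 + Real.log n) {s : ℂ}
    (hs : 1 < s.re) : LSeries.abscissaOfAbsConv a < s.re :=
  lt_of_le_of_lt (abscissa_le a ha) (by exact_mod_cast hs)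

theorem bk_summable (a : ℕ → ℂ) (ha : ∀ n : ℕ, 1 ≤ n → ‖a n‖ ≤ 1 + Real.log n) (k : ℕ) {s : ℂ}
    (hs : 1 < s.re) : LSeriesSummable (bk a k) s := by
  apply LSeriesSummable_of_abscissaOfAbsConv_lt_re
  rw [← logMul_iter, LSeries.absicssaOfAbsConv_logPowMul]
  exact abscissa_lt a ha hs

theorem bk_LSeries_norm (a : ℕ → ℂ) (ha : ∀ n : ℕ, 1 ≤ n → ‖a n‖ ≤ 1 + Real.log n) (k : ℕ) {s : ℂ}
    (hs : 1 < s.re) : ‖LSeries (bk a k) s‖ = ‖iteratedDeriv k (LSeries a) s‖ := by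
  rw [LSeries_iteratedDeriv k (abscissa_lt a ha hs), logMul_iter, norm_mul, norm_pow, norm_neg,
    norm_one, one_pow, one_mul]

/-- the growth constant -/
def Jc : ℝ := ∫ y : ℝ, (1 + |y|) ^ (1 / 2 : ℝ) * (1 + y ^ 2)⁻¹

theorem Jc_int : Integrable fun y : ℝ => (1 + |y|) ^ (1 / 2 : ℝ) * (1 + y ^ 2)⁻¹ := by
  have h := integrable_one_add_norm (E := ℝ) (μ := volume) (r := 3 / 2)
    (by simp; norm_num)
  refine Integrable.mono' (h.const_mul 2) ?_ ?_
  · apply Continuous.aestronglyMeasurable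
    refine Continuous.mul ?_ ?_
    · exact Continuous.rpow_const (by fun_prop) (fun y => Or.inl (by positivity))
    · refine Continuous.inv₀ (by fun_prop) (fun y => by positivity)
  · filter_upwards with y
    rw [Real.norm_of_nonneg (by positivity)]
    have h1 : (1 + |y|) ^ 2 ≤ 2 * (1 + y ^ 2) := by
      have := sq_abs y
      nlinarith [sq_nonneg (1 - |y|)]
    have h2 : (1 + y ^ 2)⁻¹ ≤ 2 * ((1 + |y|) ^ 2)⁻¹ := by
      rw [inv_eq_one_div, div_le_iff₀ (by positivity)]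
      have h3 : 0 < (1 + |y|) ^ 2 := by positivity
      rw [mul_assoc, ← div_eq_inv_mul, ← mul_div_assoc, le_div_iff₀ h3]
      linarith
    calc (1 + |y|) ^ (1 / 2 : ℝ) * (1 + y ^ 2)⁻¹
        ≤ (1 + |y|) ^ (1 / 2 : ℝ) * (2 * ((1 + |y|) ^ 2)⁻¹) := by gcongr
      _ = 2 * (1 + ‖y‖) ^ (-(3 / 2 : ℝ)) := by
          rw [Real.norm_eq_abs, show (-(3 / 2 : ℝ)) = 1 / 2 - 2 by norm_num,
            Real.rpow_sub (by positivity)]
          rw [show ((2 : ℝ)) = ((2 : ℕ) : ℝ) by norm_num, Real.rpow_natCast]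
          push_cast
          ring

theorem Jc_nonneg : 0 ≤ Jc := integral_nonneg fun y => by positivity

/-- the smoothed sums -/
theorem smooth_bound (a : ℕ → ℂ) (ha : ∀ n : ℕ, 1 ≤ n → ‖a n‖ ≤ 1 + Real.log n) (k : ℕ) (K : ℝ)
    (hK : ∀ s : ℂ, 1 < s.re → s.re ≤ 2 →
      ‖iteratedDeriv k (LSeries a) s‖ ≤ K * (1 + |s.im|) ^ (1 / 2 : ℝ))
    (x : ℝ) (hx : 3 ≤ x) :
    ‖∑ n ∈ Finset.Icc 1 ⌊x⌋₊, bk a k n * (x - n)‖ ≤ 3 * Jc * K * x ^ 2 := by
  have hx0 : 0 < x := by linarith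
  have hl1 : 1 < Real.log x := by
    rw [Real.lt_log_iff_exp_lt hx0]
    exact lt_of_lt_of_le Real.exp_one_lt_three hx
  set c : ℝ := 1 + 1 / Real.log x with hc
  have hc1 : 1 < c := by
    have : 0 < 1 / Real.log x := by positivity
    linarith
  have hc2 : c ≤ 2 := by
    have : 1 / Real.log x ≤ 1 := by rw [div_le_one (by linarith)]; exact hl1.le
    linarith
  have h := perron_norm (bk a k) c hc1.le (bk_summable a ha k (by simpa using hc1)) hx0
    (fun y => K * (1 + |y|) ^ (1 / 2 : ℝ)) ?_ ?_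
  · have h1 : ∑ n ∈ Finset.Icc 1 ⌊x⌋₊, bk a k n * ((x : ℂ) - n) =
        x * ∑ n ∈ Finset.Icc 1 ⌊x⌋₊, bk a k n * (1 - n / x) := by
      rw [Finset.mul_sum]
      apply Finset.sum_congr rfl
      intro n _
      have : (x : ℂ) ≠ 0 := by exact_mod_cast hx0.ne'
      field_simp
    rw [h1, norm_mul, Complex.norm_real, Real.norm_of_nonneg hx0.le]
    have h2 : ∫ y : ℝ, K * (1 + |y|) ^ (1 / 2 : ℝ) * (1 + y ^ 2)⁻¹ = K * Jc := by
      unfold Jc
      rw [← integral_const_mul]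
      congr 1
      ext y
      ring
    rw [h2] at h
    have h3 : x ^ c = x * Real.exp 1 := by
      rw [hc, Real.rpow_add hx0, Real.rpow_one, Real.rpow_def_of_pos hx0]
      congr 2
      field_simp
    have hK0 : 0 ≤ K := by
      have := (norm_nonneg _).trans (hK 2 (by norm_num) (by norm_num))
      simp at this
      linarith
    calc x * ‖∑ n ∈ Finset.Icc 1 ⌊x⌋₊, bk a k n * (1 - n / x)‖ ≤ x * (x ^ c * (K * Jc)) := by
          gcongr
      _ = Real.exp 1 * (Jc * K * x ^ 2) := by rw [h3]; ring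
      _ ≤ 3 * (Jc * K * x ^ 2) := by
          apply mul_le_mul_of_nonneg_right Real.exp_one_lt_three.le
          have := Jc_nonneg
          positivity
      _ = _ := by ring
  · intro y
    rw [bk_LSeries_norm a ha k (by simp; linarith)]
    have := hK ((c : ℂ) + y * I) (by simp; linarith) (by simp; linarith)
    simpa using this
  · have := Jc_int.const_mul K
    simpa only [mul_assoc] using this

end

end Crest.Agent.SW
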