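import Crest.Agent.R001.SW.Zeta
import Crest.Agent.SW.SiegelA

-- ▼ part SW/LBound259
section

/-!
# Siegel–Walfisz library: bounds `L(s, χ) ≪ (q (2+|t|))^η` near `Re s = 1` (helper259)
-/

set_option autoImplicit false
set_option maxHeartbeats 1000000

open Complex

namespace Crest.Agent.SW

noncomputable section

open Crest.Agent.R001.SW (Sm E)

/-- the analytic conductor `q (2+|t|)` -/
def Qc (q : ℕ) (s : ℂ) : ℝ := q * (2 + |s.im|)

theorem Qc_ge {q : ℕ} (hq : 1 ≤ q) (s : ℂ) : 2 ≤ Qc q s := by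
  unfold Qc
  have : (1 : ℝ) ≤ q := by exact_mod_cast hq
  nlinarith [abs_nonneg s.im]

theorem Qc_pos {q : ℕ} (hq : 1 ≤ q) (s : ℂ) : 0 < Qc q s := by linarith [Qc_ge hq s]

theorem norm_le_of_re {s : ℂ} (h0 : 0 ≤ s.re) (h3 : s.re ≤ 3) : ‖s‖ ≤ 3 / 2 * (2 + |s.im|) := by
  have h := Complex.norm_le_abs_re_add_abs_im s
  rw [abs_of_nonneg h0] at h
  linarith [abs_nonneg s.im]

/-- the truncation point -/
def Nt (q : ℕ) (s : ℂ) : ℕ := q * ⌈2 + |s.im|⌉₊

theorem Nt_ge (q : ℕ) (s : ℂ) : Qc q s ≤ Nt q s := by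
  unfold Qc Nt
  push_cast
  gcongr
  exact Nat.le_ceil _

theorem Nt_le (q : ℕ) (s : ℂ) : (Nt q s : ℝ) ≤ 2 * Qc q s := by
  unfold Qc Nt
  push_cast
  have h := Nat.ceil_lt_add_one (show 0 ≤ 2 + |s.im| by positivity)
  have h2 : (⌈2 + |s.im|⌉₊ : ℝ) ≤ 2 * (2 + |s.im|) := by linarith [abs_nonneg s.im]
  calc (q : ℝ) * ⌈2 + |s.im|⌉₊ ≤ q * (2 * (2 + |s.im|)) := by gcongr
    _ = _ := by ring

theorem Nt_pos {q : ℕ} (hq : 1 ≤ q) (s : ℂ) : 1 ≤ Nt q s := by
  unfold Nt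
  have : 0 < ⌈2 + |s.im|⌉₊ := Nat.ceil_pos.mpr (by positivity)
  exact Nat.one_le_iff_ne_zero.mpr (by positivity)

theorem rpow_Nt_le {η : ℝ} (hη : 0 < η) (hη1 : η ≤ 1 / 2) {q : ℕ} (hq : 1 ≤ q) (s : ℂ) :
    (Nt q s : ℝ) ^ η ≤ 2 * Qc q s ^ η := by
  have hQ := Qc_pos hq s
  calc (Nt q s : ℝ) ^ η ≤ (2 * Qc q s) ^ η := by gcongr; exact Nt_le q s
    _ = 2 ^ η * Qc q s ^ η := Real.mul_rpow (by norm_num) hQ.le
    _ ≤ 2 * Qc q s ^ η := by
        have : (2 : ℝ) ^ η ≤ 2 ^ (1 : ℝ) :=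
          Real.rpow_le_rpow_of_exponent_le (by norm_num) (by linarith)
        rw [Real.rpow_one] at this
        gcongr

theorem E_bound {η : ℝ} (hη : 0 < η) (hη1 : η ≤ 1 / 2) {f : ℕ → ℂ} (hf : ∀ n, ‖f n‖ ≤ 1) {q : ℕ}
    (hq : 1 ≤ q) (hS : ∀ n, ‖Sm f n‖ ≤ q) {s : ℂ} (h1 : 1 - η ≤ s.re) (h3 : s.re ≤ 3) :
    ‖E f s‖ ≤ 2 * (1 / η + 4) * Qc q s ^ η := by
  have hre : 1 / 2 ≤ s.re := by linarith
  have hre0 : 0 < s.re := by linarith
  have hN := Nt_pos hq s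
  have hNR : (1 : ℝ) ≤ Nt q s := by exact_mod_cast hN
  have hN0 : (0 : ℝ) < Nt q s := by linarith
  have hb := Crest.Agent.R001.SW.norm_E_le_trunc hS hre0 hN
  have hle : (Nt q s : ℝ) ^ (-s.re) ≤ (Nt q s : ℝ) ^ η / Nt q s := by
    rw [← Real.rpow_sub_one hN0.ne']
    exact Real.rpow_le_rpow_of_exponent_le hNR (by linarith)
  have hq0 : (0 : ℝ) ≤ q := Nat.cast_nonneg q
  have hQN := Nt_ge q s
  have hqN : (q : ℝ) ≤ Nt q s := by
    refine le_trans ?_ hQN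
    unfold Qc
    nlinarith [abs_nonneg s.im]
  have hNη : 0 < (Nt q s : ℝ) ^ η := by positivity
  have t1 : ∑ n ∈ Finset.Icc 1 (Nt q s), ‖f n‖ * (n : ℝ) ^ (-s.re) ≤ (Nt q s : ℝ) ^ η / η := by
    refine le_trans (Finset.sum_le_sum fun n hn => ?_)
      (Crest.Agent.R001.SW.sum_Icc_rpow_le hη (by linarith) (Nt q s))
    have hn1 : (1 : ℝ) ≤ n := by exact_mod_cast (Finset.mem_Icc.mp hn).1
    calc ‖f n‖ * (n : ℝ) ^ (-s.re) ≤ 1 * (n : ℝ) ^ (η - 1) := by
          apply mul_le_mul (hf n) _ (by positivity) (by norm_num)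
          exact Real.rpow_le_rpow_of_exponent_le hn1 (by linarith)
      _ = _ := one_mul _
  have t2 : (q : ℝ) * (Nt q s : ℝ) ^ (-s.re) ≤ (Nt q s : ℝ) ^ η := by
    calc (q : ℝ) * (Nt q s : ℝ) ^ (-s.re) ≤ (Nt q s : ℝ) * ((Nt q s : ℝ) ^ η / Nt q s) := by gcongr
      _ = (Nt q s : ℝ) ^ η := by field_simp
  have t3 : (q : ℝ) * ‖s‖ * ((Nt q s : ℝ) ^ (-s.re) / s.re) ≤ 3 * (Nt q s : ℝ) ^ η := by
    have hs := norm_le_of_re hre0.le h3
    have e1 : (q : ℝ) * ‖s‖ ≤ 3 / 2 * Nt q s := by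
      calc (q : ℝ) * ‖s‖ ≤ q * (3 / 2 * (2 + |s.im|)) := by gcongr
        _ = 3 / 2 * Qc q s := by unfold Qc; ring
        _ ≤ _ := by gcongr
    have e2 : (Nt q s : ℝ) ^ (-s.re) / s.re ≤ 2 * ((Nt q s : ℝ) ^ η / Nt q s) := by
      rw [div_le_iff₀ hre0]
      have : 0 < (Nt q s : ℝ) ^ η / Nt q s := by positivity
      nlinarith
    calc (q : ℝ) * ‖s‖ * ((Nt q s : ℝ) ^ (-s.re) / s.re) ≤
        (3 / 2 * Nt q s) * (2 * ((Nt q s : ℝ) ^ η / Nt q s)) := by
          apply mul_le_mul e1 e2 (by positivity) (by positivity)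
      _ = 3 * (Nt q s : ℝ) ^ η := by field_simp
  have hfin := rpow_Nt_le hη hη1 hq s
  calc ‖E f s‖ ≤ (Nt q s : ℝ) ^ η / η + (Nt q s : ℝ) ^ η + 3 * (Nt q s : ℝ) ^ η := by linarith
    _ = (1 / η + 4) * (Nt q s : ℝ) ^ η := by ring
    _ ≤ (1 / η + 4) * (2 * Qc q s ^ η) := by gcongr
    _ = _ := by ring

theorem LFunction_eq_E {q : ℕ} [NeZero q] {χ : DirichletCharacter ℂ q} (hχ : χ ≠ 1) {s : ℂ}
    (hs : 0 < s.re) : DirichletCharacter.LFunction χ s = E (fun n : ℕ => χ (n : ZMod q)) s := by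
  have hS : ∀ n, ‖Sm (fun n : ℕ => χ (n : ZMod q)) n‖ ≤ q := fun n => Siegel.norm_sum_Icc_le hχ n
  refine Crest.Agent.R001.SW.eq_of_eq_re_gt_one
    (DirichletCharacter.differentiable_LFunction hχ).differentiableOn
    (Crest.Agent.R001.SW.differentiableOn_E hS) ?_ hs
  intro z hz
  rw [DirichletCharacter.LFunction_eq_LSeries χ hz]
  exact (Crest.Agent.R001.SW.E_eq_LSeries hS (by linarith)
    (DirichletCharacter.LSeriesSummable_of_one_lt_re χ hz)).symm

/-- `|L(s,χ)| ≤ C (q(2+|t|))^η` for `Re s ≥ 1 - η`, `χ` non-principal -/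
theorem L_bound {η : ℝ} (hη : 0 < η) (hη1 : η ≤ 1 / 2) {q : ℕ} [NeZero q]
    {χ : DirichletCharacter ℂ q} (hχ : χ ≠ 1) {s : ℂ} (h1 : 1 - η ≤ s.re) (h3 : s.re ≤ 3) :
    ‖DirichletCharacter.LFunction χ s‖ ≤ 2 * (1 / η + 4) * Qc q s ^ η := by
  have hq : 1 ≤ q := Nat.one_le_iff_ne_zero.mpr (NeZero.ne q)
  rw [LFunction_eq_E hχ (by linarith)]
  exact E_bound hη hη1 (fun n => χ.norm_le_one _) hq (fun n => Siegel.norm_sum_Icc_le hχ n) h1 h3

/-- `|ζ(s)| ≤ C ((2+|t|)^η + 1/|s-1|)` for `1 < Re s ≤ 3` -/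
theorem zeta_bound {η : ℝ} (hη : 0 < η) (hη1 : η ≤ 1 / 2) {s : ℂ} (h1 : 1 < s.re) (h3 : s.re ≤ 3) :
    ‖riemannZeta s‖ ≤ 2 * (2 / η + 4) * Qc 1 s ^ η + 1 / ‖s - 1‖ := by
  have hs1 : s ≠ 1 := by
    rintro rfl; simp at h1
  have hz : riemannZeta₁ s = (s - 1) * riemannZeta s := by
    rw [riemannZeta_eq_inv_sub_mul hs1, ← mul_assoc, mul_inv_cancel₀ (sub_ne_zero.mpr hs1), one_mul]
  have hN := Nt_pos (q := 1) le_rfl s
  have hNR : (1 : ℝ) ≤ Nt 1 s := by exact_mod_cast hN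
  have hN0 : (0 : ℝ) < Nt 1 s := by linarith
  have hd : 0 < ‖s - 1‖ := norm_pos_iff.mpr (sub_ne_zero.mpr hs1)
  have hb := Crest.Agent.R001.SW.norm_zeta1_le_trunc (s := s) (by linarith) hN
  rw [hz, norm_mul] at hb
  have hNη : 0 < (Nt 1 s : ℝ) ^ η := by positivity
  have hNη1 : 1 ≤ (Nt 1 s : ℝ) ^ η := Real.one_le_rpow hNR hη.le
  have t1 : ∑ n ∈ Finset.Icc 1 (Nt 1 s + 1), (n : ℝ) ^ (-s.re) ≤ 2 * (Nt 1 s : ℝ) ^ η / η := by
    have h4 : ∑ n ∈ Finset.Icc 1 (Nt 1 s + 1), (n : ℝ) ^ (-s.re) ≤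
        ((Nt 1 s + 1 : ℕ) : ℝ) ^ η / η := by
      refine le_trans (Finset.sum_le_sum fun n hn => ?_)
        (Crest.Agent.R001.SW.sum_Icc_rpow_le hη (by linarith) (Nt 1 s + 1))
      have hn1 : (1 : ℝ) ≤ n := by exact_mod_cast (Finset.mem_Icc.mp hn).1
      exact Real.rpow_le_rpow_of_exponent_le hn1 (by linarith)
    refine h4.trans ?_
    have h5 : ((Nt 1 s + 1 : ℕ) : ℝ) ^ η ≤ 2 * (Nt 1 s : ℝ) ^ η := by
      calc ((Nt 1 s + 1 : ℕ) : ℝ) ^ η ≤ (2 * (Nt 1 s : ℝ)) ^ η := by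
            gcongr
            push_cast
            linarith
        _ = 2 ^ η * (Nt 1 s : ℝ) ^ η := Real.mul_rpow (by norm_num) hN0.le
        _ ≤ 2 * (Nt 1 s : ℝ) ^ η := by
            have : (2 : ℝ) ^ η ≤ 2 ^ (1 : ℝ) :=
              Real.rpow_le_rpow_of_exponent_le (by norm_num) (by linarith)
            rw [Real.rpow_one] at this
            gcongr
    gcongr
  have t2 : ((Nt 1 s + 1 : ℕ) : ℝ) ^ (1 - s.re) ≤ 1 := by
    apply Real.rpow_le_one_of_one_le_of_nonpos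
    · push_cast; linarith
    · linarith
  have t3 : ‖s‖ * ((Nt 1 s : ℝ) ^ (-s.re) / s.re) ≤ 3 / 2 := by
    have hs := norm_le_of_re (by linarith) h3
    have hQN := Nt_ge 1 s
    have e1 : ‖s‖ ≤ 3 / 2 * Nt 1 s := by
      refine hs.trans ?_
      have : (2 + |s.im|) = Qc 1 s := by unfold Qc; simp
      rw [this]
      gcongr
    have e2 : (Nt 1 s : ℝ) ^ (-s.re) / s.re ≤ (Nt 1 s : ℝ)⁻¹ := by
      rw [div_le_iff₀ (by linarith)]
      have e3 : (Nt 1 s : ℝ) ^ (-s.re) ≤ (Nt 1 s : ℝ) ^ (-1 : ℝ) :=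
        Real.rpow_le_rpow_of_exponent_le hNR (by linarith)
      rw [Real.rpow_neg_one] at e3
      have : 0 < (Nt 1 s : ℝ)⁻¹ := by positivity
      nlinarith
    calc ‖s‖ * ((Nt 1 s : ℝ) ^ (-s.re) / s.re) ≤ (3 / 2 * Nt 1 s) * (Nt 1 s : ℝ)⁻¹ := by
          apply mul_le_mul e1 e2 (by positivity) (by positivity)
      _ = 3 / 2 := by field_simp
  have hfin := rpow_Nt_le hη hη1 (q := 1) le_rfl s
  have h6 : ‖s - 1‖ * ‖riemannZeta s‖ ≤ ‖s - 1‖ * (2 * (Nt 1 s : ℝ) ^ η / η + 3 / 2 + 1 / ‖s - 1‖) := by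
    have e4 : ‖s - 1‖ * ‖s‖ * ((Nt 1 s : ℝ) ^ (-s.re) / s.re) ≤ ‖s - 1‖ * (3 / 2) := by
      rw [mul_assoc]
      gcongr
    have e5 : ‖s - 1‖ * ∑ n ∈ Finset.Icc 1 (Nt 1 s + 1), (n : ℝ) ^ (-s.re) ≤
        ‖s - 1‖ * (2 * (Nt 1 s : ℝ) ^ η / η) := by gcongr
    have e6 : ‖s - 1‖ * (2 * (Nt 1 s : ℝ) ^ η / η + 3 / 2 + 1 / ‖s - 1‖) =
        ‖s - 1‖ * (2 * (Nt 1 s : ℝ) ^ η / η) + ‖s - 1‖ * (3 / 2) + 1 := by
      field_simp
    rw [e6]
    linarith
  have h7 := le_of_mul_le_mul_left h6 hd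
  have h8 : 2 * (Nt 1 s : ℝ) ^ η / η + 3 / 2 ≤ (2 / η + 4) * (Nt 1 s : ℝ) ^ η := by
    have : 2 * (Nt 1 s : ℝ) ^ η / η = 2 / η * (Nt 1 s : ℝ) ^ η := by ring
    rw [this]
    nlinarith
  have h9 : (2 / η + 4) * (Nt 1 s : ℝ) ^ η ≤ (2 / η + 4) * (2 * Qc 1 s ^ η) := by gcongr
  linarith

/-- partial sums of periodic functions of mean value zero -/
theorem sum_range_periodic {f : ℕ → ℂ} {q : ℕ} (hq : 0 < q) (hper : ∀ n, f (q + n) = f n)
    (h0 : ∑ n ∈ Finset.range q, f n = 0) (hf : ∀ n, ‖f n‖ ≤ 1) (k : ℕ) :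
    ‖∑ n ∈ Finset.range k, f n‖ ≤ q := by
  induction k using Nat.strong_induction_on with
  | _ k ih =>
    rcases lt_or_ge k q with h | h
    · refine (norm_sum_le _ _).trans ((Finset.sum_le_sum fun n _ => hf n).trans ?_)
      rw [Finset.sum_const, Finset.card_range, nsmul_eq_mul, mul_one]
      exact_mod_cast h.le
    · obtain ⟨j, rfl⟩ := Nat.exists_eq_add_of_le h
      rw [Finset.sum_range_add, h0, zero_add]
      simp_rw [hper]
      exact ih j (by omega)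

/-- the principal character minus its mean -/
def f0 (q : ℕ) (n : ℕ) : ℂ := (1 : DirichletCharacter ℂ q) (n : ZMod q) - ((q.totient / q : ℝ) : ℂ)

theorem sum_range_one {q : ℕ} [NeZero q] :
    ∑ n ∈ Finset.range q, (1 : DirichletCharacter ℂ q) (n : ZMod q) = q.totient := by
  have h : ∑ a : ZMod q, (1 : DirichletCharacter ℂ q) a = q.totient := by
    have := MulChar.sum_one_eq_card_units (R := ZMod q) (R' := ℂ)
    rw [this, ZMod.card_units_eq_totient]
  rw [← h]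
  refine Finset.sum_nbij' (fun n : ℕ => (n : ZMod q)) (fun a : ZMod q => a.val) ?_ ?_ ?_ ?_ ?_
  · intro a _
    exact Finset.mem_univ _
  · intro a _
    exact Finset.mem_range.mpr (ZMod.val_lt a)
  · intro n hn
    exact ZMod.val_cast_of_lt (Finset.mem_range.mp hn)
  · intro a _
    exact ZMod.natCast_zmod_val a
  · intro n _
    rfl

theorem f0_norm_le {q : ℕ} [NeZero q] (n : ℕ) : ‖f0 q n‖ ≤ 1 := by
  unfold f0
  have hq : (0 : ℝ) < q := by exact_mod_cast Nat.pos_of_ne_zero (NeZero.ne q)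
  have h1 : (q.totient : ℝ) / q ≤ 1 := by
    rw [div_le_one hq]
    exact_mod_cast Nat.totient_le q
  have h0 : 0 ≤ (q.totient : ℝ) / q := by positivity
  by_cases h : IsUnit (n : ZMod q)
  · rw [MulChar.one_apply h]
    have : (1 : ℂ) - ((q.totient / q : ℝ) : ℂ) = ((1 - q.totient / q : ℝ) : ℂ) := by push_cast; ring
    rw [this, Complex.norm_real, Real.norm_eq_abs, abs_le]
    constructor <;> linarith
  · rw [MulChar.map_nonunit _ h, zero_sub, norm_neg, Complex.norm_real, Real.norm_of_nonneg h0]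
    exact h1

theorem f0_per {q : ℕ} (n : ℕ) : f0 q (q + n) = f0 q n := by
  unfold f0
  congr 2
  simp

theorem f0_Sm {q : ℕ} [NeZero q] (n : ℕ) : ‖Sm (f0 q) n‖ ≤ q := by
  have hq : 0 < q := Nat.pos_of_ne_zero (NeZero.ne q)
  have h1 : Sm (f0 q) n = ∑ k ∈ Finset.range n, f0 q (k + 1) := by
    unfold Sm
    rw [Finset.range_eq_Ico, Finset.sum_Ico_add' (f0 q) 0 n 1]
    rfl
  rw [h1]
  refine sum_range_periodic hq (f := fun k => f0 q (k + 1)) (fun k => ?_) ?_ (fun k => f0_norm_le _) n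
  · change f0 q (q + k + 1) = f0 q (k + 1)
    rw [add_assoc, f0_per]
  · have h2 : ∑ k ∈ Finset.range q, f0 q k = 0 := by
      unfold f0
      rw [Finset.sum_sub_distrib, sum_range_one, Finset.sum_const, Finset.card_range, nsmul_eq_mul]
      push_cast
      have : (q : ℂ) ≠ 0 := by exact_mod_cast hq.ne'
      field_simp
      ring
    have h3 := Finset.sum_range_succ' (f0 q) q
    rw [Finset.sum_range_succ, h2, zero_add] at h3
    have h4 : f0 q q = f0 q 0 := by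
      have := f0_per (q := q) 0
      simpa using this
    rw [h4] at h3
    have : ∑ k ∈ Finset.range q, f0 q (k + 1) + f0 q 0 = 0 + f0 q 0 := by rw [zero_add]; exact h3.symm
    exact add_right_cancel this

theorem L0_bound {η : ℝ} (hη : 0 < η) (hη1 : η ≤ 1 / 2) {q : ℕ} [NeZero q] {s : ℂ} (h1 : 1 < s.re)
    (h3 : s.re ≤ 3) :
    ‖DirichletCharacter.LFunction (1 : DirichletCharacter ℂ q) s‖ ≤
      (6 / η + 20) * Qc q s ^ η * (1 + 1 / ‖s - 1‖) := by
  have hq : 1 ≤ q := Nat.one_le_iff_ne_zero.mpr (NeZero.ne q)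
  have hqR : (0 : ℝ) < q := by exact_mod_cast hq
  have hE := E_bound hη hη1 (fun n => f0_norm_le (q := q) n) hq (fun n => f0_Sm n)
    (s := s) (by linarith) h3
  have hz := zeta_bound hη hη1 h1 h3
  have hs1 : s ≠ 1 := by
    rintro rfl; simp at h1
  have hd : 0 < ‖s - 1‖ := norm_pos_iff.mpr (sub_ne_zero.mpr hs1)
  have hsum1 : LSeriesSummable (fun n : ℕ => (1 : DirichletCharacter ℂ q) (n : ZMod q)) s :=
    DirichletCharacter.LSeriesSummable_of_one_lt_re 1 h1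
  have hsumz : LSeriesSummable (1 : ℕ → ℂ) s := LSeriesSummable_one_iff.mpr h1
  set κ : ℂ := ((q.totient / q : ℝ) : ℂ) with hκ
  have hκn : ‖κ‖ ≤ 1 := by
    rw [hκ, Complex.norm_real, Real.norm_of_nonneg (by positivity), div_le_one hqR]
    exact_mod_cast Nat.totient_le q
  have hfeq : f0 q = (fun n : ℕ => (1 : DirichletCharacter ℂ q) (n : ZMod q)) - κ • (1 : ℕ → ℂ) := by
    ext n
    simp [f0, hκ]
  have hsummκ : LSeriesSummable (κ • (1 : ℕ → ℂ)) s := hsumz.smul κ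
  have hEeq : E (f0 q) s = DirichletCharacter.LFunction (1 : DirichletCharacter ℂ q) s -
      κ * riemannZeta s := by
    rw [Crest.Agent.R001.SW.E_eq_LSeries (fun n => f0_Sm n) (by linarith)
      (by rw [hfeq]; exact hsum1.sub hsummκ)]
    rw [hfeq, LSeries_sub hsum1 hsummκ, LSeries_smul, LSeries_one_eq_riemannZeta h1,
      DirichletCharacter.LFunction_eq_LSeries _ h1]
  have h4 : DirichletCharacter.LFunction (1 : DirichletCharacter ℂ q) s = E (f0 q) s +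
      κ * riemannZeta s := by rw [hEeq]; ring
  rw [h4]
  have hQ2 := Qc_ge hq s
  have hQ1 : 1 ≤ Qc q s ^ η := Real.one_le_rpow (by linarith) hη.le
  have hQle : Qc 1 s ^ η ≤ Qc q s ^ η := by
    have := Qc_pos (q := 1) le_rfl s
    apply Real.rpow_le_rpow this.le _ hη.le
    unfold Qc
    gcongr
  have h5 : ‖κ * riemannZeta s‖ ≤ 2 * (2 / η + 4) * Qc q s ^ η + 1 / ‖s - 1‖ := by
    rw [norm_mul]
    calc ‖κ‖ * ‖riemannZeta s‖ ≤ 1 * (2 * (2 / η + 4) * Qc 1 s ^ η + 1 / ‖s - 1‖) := by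
          gcongr
      _ ≤ 2 * (2 / η + 4) * Qc q s ^ η + 1 / ‖s - 1‖ := by
          rw [one_mul]
          gcongr
  have hη' : 0 < 1 / η := by positivity
  have hi : 0 < 1 / ‖s - 1‖ := by positivity
  refine (norm_add_le _ _).trans ?_
  have e : (6 / η + 20 : ℝ) = 6 * (1 / η) + 20 := by ring
  have e2 : (2 / η + 4 : ℝ) = 2 * (1 / η) + 4 := by ring
  rw [e]
  rw [e2] at h5
  set T := Qc q s ^ η
  set u := 1 / ‖s - 1‖
  set v := 1 / η
  have : 2 ≤ v := by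
    rw [show v = 1 / η from rfl, le_div_iff₀ hη]
    linarith
  nlinarith [mul_pos (show 0 < T by linarith) hi, mul_pos hη' (show 0 < T by linarith),
    mul_pos (mul_pos hη' (show 0 < T by linarith)) hi]

end

end Crest.Agent.SW
end

-- ▼ part SW/LLower259

/-!
# Siegel–Walfisz library: lower bounds for `L(s, χ)` on `Re s > 1` (helper259)
-/

set_option autoImplicit false
set_option maxHeartbeats 1000000

open Complex

namespace Crest.Agent.SW

noncomputable section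

open DirichletCharacter

theorem Qc_near {q : ℕ} {s z : ℂ} (h : ‖z - s‖ ≤ 1) : Qc q z ≤ 2 * Qc q s := by
  unfold Qc
  have h1 : |z.im| ≤ |s.im| + 1 := by
    have h2 : |z.im - s.im| ≤ 1 := by
      have := Complex.abs_im_le_norm (z - s)
      rw [Complex.sub_im] at this
      linarith
    have h3 := abs_sub_abs_le_abs_sub z.im s.im
    linarith
  have h4 : (0 : ℝ) ≤ q := Nat.cast_nonneg q
  have h5 : 0 ≤ |s.im| := abs_nonneg _
  calc (q : ℝ) * (2 + |z.im|) ≤ q * (2 * (2 + |s.im|)) := by gcongr; linarith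
    _ = _ := by ring

theorem Qc_rpow_near {q : ℕ} {s z : ℂ} (h : ‖z - s‖ ≤ 1) {η : ℝ} (hη : 0 ≤ η) (hη1 : η ≤ 1) :
    Qc q z ^ η ≤ 2 * Qc q s ^ η := by
  have h0 : 0 ≤ Qc q z := by unfold Qc; positivity
  have h1 : 0 ≤ Qc q s := by unfold Qc; positivity
  calc Qc q z ^ η ≤ (2 * Qc q s) ^ η := Real.rpow_le_rpow h0 (Qc_near h) hη
    _ = 2 ^ η * Qc q s ^ η := Real.mul_rpow (by norm_num) h1
    _ ≤ 2 * Qc q s ^ η := by
        have : (2 : ℝ) ^ η ≤ 2 ^ (1 : ℝ) := Real.rpow_le_rpow_of_exponent_le (by norm_num) hη1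
        rw [Real.rpow_one] at this
        gcongr

/-- constant in the derivative bound -/
def Cd (η : ℝ) : ℝ := 8 * (1 / η + 4) / η

theorem Cd_ge {η : ℝ} (hη : 0 < η) (hη1 : η ≤ 1 / 2) : 1 ≤ Cd η := by
  unfold Cd
  rw [le_div_iff₀ hη]
  have : 0 < 1 / η := by positivity
  linarith

theorem L_deriv_bound {η : ℝ} (hη : 0 < η) (hη1 : η ≤ 1 / 2) {q : ℕ} [NeZero q]
    {χ : DirichletCharacter ℂ q} (hχ : χ ≠ 1) {s : ℂ} (h1 : 1 - η / 2 ≤ s.re) (h3 : s.re ≤ 5 / 2) :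
    ‖deriv (LFunction χ) s‖ ≤ Cd η * Qc q s ^ η := by
  have h := Complex.norm_deriv_le_of_forall_mem_sphere_norm_le (c := s) (R := η / 2)
    (C := 2 * (1 / η + 4) * (2 * Qc q s ^ η)) (f := LFunction χ) (by positivity)
    (differentiable_LFunction hχ).diffContOnCl ?_
  · refine h.trans (le_of_eq ?_)
    unfold Cd
    field_simp
    ring
  · intro z hz
    rw [mem_sphere_iff_norm] at hz
    have hre : |z.re - s.re| ≤ η / 2 := by
      have := Complex.abs_re_le_norm (z - s)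
      rw [Complex.sub_re] at this
      linarith
    rw [abs_le] at hre
    refine (L_bound hη hη1 hχ (s := z) (by linarith [hre.1]) (by linarith [hre.2])).trans ?_
    have hη' : 0 < 1 / η := by positivity
    have := Qc_rpow_near (q := q) (s := s) (z := z) (by linarith) hη.le (by linarith)
    gcongr

/-- the value at a real point of the principal character -/
theorem norm_LSeries_le_zeta {a : ℕ → ℂ} (ha : ∀ n, ‖a n‖ ≤ 1) {s : ℂ} (h1 : 1 < s.re)
    (h2 : s.re ≤ 2) : ‖LSeries a s‖ ≤ 8 / (s.re - 1) := by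
  have hs : LSeriesSummable a s := LSeriesSummable_of_bounded_of_one_lt_re (m := 1)
    (fun n _ => ha n) h1
  have hz : LSeriesSummable (1 : ℕ → ℂ) s.re := LSeriesSummable_one_iff.mpr (by simpa using h1)
  have h3 : ‖LSeries a s‖ ≤ ∑' n, ‖LSeries.term (1 : ℕ → ℂ) s.re n‖ := by
    unfold LSeries
    refine (norm_tsum_le_tsum_norm hs.norm).trans ?_
    refine Summable.tsum_le_tsum (fun n => ?_) hs.norm hz.norm
    rw [LSeries.norm_term_eq, LSeries.norm_term_eq]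
    by_cases hn : n = 0
    · simp [hn]
    · rw [if_neg hn, if_neg hn]
      simp only [Pi.one_apply, norm_one, Complex.ofReal_re]
      gcongr
      exact ha n
  have h4 : ∑' n, ‖LSeries.term (1 : ℕ → ℂ) s.re n‖ = ‖LSeries (1 : ℕ → ℂ) (s.re : ℂ)‖ := by
    have h5 : ∀ n, LSeries.term (1 : ℕ → ℂ) s.re n = ((‖LSeries.term (1 : ℕ → ℂ) s.re n‖ : ℝ) : ℂ) := by
      intro n
      by_cases hn : n = 0
      · simp [hn]
      · rw [LSeries.norm_term_eq, if_neg hn, LSeries.term_of_ne_zero hn]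
        simp only [Pi.one_apply, norm_one, Complex.ofReal_re]
        push_cast
        rw [Complex.ofReal_cpow (Nat.cast_nonneg n)]
        simp
    have h6 : LSeries (1 : ℕ → ℂ) (s.re : ℂ) = ((∑' n, ‖LSeries.term (1 : ℕ → ℂ) s.re n‖ : ℝ) : ℂ) := by
      unfold LSeries
      rw [Complex.ofReal_tsum]
      exact tsum_congr h5
    rw [h6, Complex.norm_real, Real.norm_of_nonneg (tsum_nonneg fun n => norm_nonneg _)]
  rw [h4, LSeries_one_eq_riemannZeta (by simpa using h1)] at h3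
  refine h3.trans ?_
  have hs1 : (s.re : ℂ) ≠ 1 := by
    intro h
    have : s.re = 1 := by exact_mod_cast h
    linarith
  have hb := Crest.Agent.R001.SW.norm_zeta1_le (s := (s.re : ℂ)) (by simp; linarith)
  have hzz : riemannZeta₁ (s.re : ℂ) = ((s.re : ℂ) - 1) * riemannZeta (s.re : ℂ) := by
    rw [riemannZeta_eq_inv_sub_mul hs1, ← mul_assoc, mul_inv_cancel₀ (sub_ne_zero.mpr hs1), one_mul]
  have hn1 : ‖(s.re : ℂ) - 1‖ = s.re - 1 := by
    rw [show (s.re : ℂ) - 1 = ((s.re - 1 : ℝ) : ℂ) by push_cast; ring, Complex.norm_real,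
      Real.norm_of_nonneg (by linarith)]
  have hn2 : ‖(s.re : ℂ)‖ = s.re := by
    rw [Complex.norm_real, Real.norm_of_nonneg (by linarith)]
  rw [hzz, norm_mul, hn1, hn2, Complex.ofReal_re] at hb
  rw [le_div_iff₀ (by linarith)]
  have h7 : (s.re - 1) * s.re * (1 + 1 / s.re) = (s.re - 1) * (s.re + 1) := by
    have : s.re ≠ 0 := by linarith
    field_simp
  rw [h7] at hb
  nlinarith

/-- trivial lower bound -/
theorem L_trivial_lower {q : ℕ} [NeZero q] (χ : DirichletCharacter ℂ q) {s : ℂ} (h1 : 1 < s.re)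
    (h2 : s.re ≤ 2) : (s.re - 1) / 8 ≤ ‖LFunction χ s‖ := by
  have h := DirichletCharacter.LSeries.mul_mu_eq_one χ h1
  rw [← LFunction_eq_LSeries χ h1] at h
  have h3 := norm_LSeries_le_zeta (a := (fun n : ℕ => χ (n : ZMod q)) * (fun n : ℕ => ((ArithmeticFunction.moebius n : ℤ) : ℂ)))
    (s := s) ?_ h1 h2
  · have h4 : ‖LFunction χ s‖ * ‖LSeries ((fun n : ℕ => χ (n : ZMod q)) * (fun n : ℕ => ((ArithmeticFunction.moebius n : ℤ) : ℂ))) s‖ = 1 := by
      rw [← norm_mul, h, norm_one]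
    have h5 : 0 ≤ ‖LFunction χ s‖ := norm_nonneg _
    have h6 : 1 ≤ ‖LFunction χ s‖ * (8 / (s.re - 1)) :=
      h4.symm.le.trans (mul_le_mul_of_nonneg_left h3 h5)
    rw [← mul_div_assoc, le_div_iff₀ (by linarith)] at h6
    linarith
  · intro n
    rw [Pi.mul_apply, norm_mul]
    have h7 : ‖((ArithmeticFunction.moebius n : ℤ) : ℂ)‖ ≤ 1 := by
      rw [Complex.norm_intCast]
      exact_mod_cast ArithmeticFunction.abs_moebius_le_one
    calc _ ≤ (1 : ℝ) * 1 := by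
          apply mul_le_mul (χ.norm_le_one _) h7 (norm_nonneg _) (by norm_num)
      _ = 1 := by norm_num

/-- core 3-4-1 argument -/
theorem core {q : ℕ} [NeZero q] {χ : DirichletCharacter ℂ q} (hχ : χ ≠ 1) (t : ℝ) {M M' : ℝ}
    (hM1 : 1 ≤ M) (hM1' : 1 ≤ M')
    (hM : ∀ s : ℂ, 1 < s.re → s.re ≤ 2 → s.im = 2 * t → ‖LFunction (χ ^ 2) s‖ ≤ M)
    (hM' : ∀ s : ℂ, 1 < s.re → s.re ≤ 2 → s.im = t → ‖deriv (LFunction χ) s‖ ≤ M')
    {s : ℂ} (h1 : 1 < s.re) (h2 : s.re ≤ 2) (him : s.im = t) :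
    1 / (8192 * M * M' ^ 3) ≤ ‖LFunction χ s‖ := by
  -- the 3-4-1 inequality
  have key : ∀ x : ℝ, 0 < x → x ≤ 1 → ∀ z : ℂ, z = 1 + x + I * t →
      x ^ 3 / (512 * M) ≤ ‖LFunction χ z‖ ^ 4 := by
    intro x hx hx1 z hz
    have h := norm_LFunction_product_ge_one χ hx t
    rw [← hz] at h
    rw [norm_mul, norm_mul, norm_pow, norm_pow] at h
    have hA : ‖LFunctionTrivChar q (1 + x)‖ ≤ 8 / x := by
      have h3 : (1 : ℝ) < ((1 : ℂ) + x).re := by simp; exact hx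
      rw [LFunctionTrivChar, LFunction_eq_LSeries _ h3]
      have := norm_LSeries_le_zeta (a := fun n : ℕ => (1 : DirichletCharacter ℂ q) (n : ZMod q))
        (s := (1 : ℂ) + x) (fun n => norm_le_one _ _) h3 (by simp; linarith)
      simpa using this
    have hB : ‖LFunction (χ ^ 2) (1 + x + 2 * I * t)‖ ≤ M := by
      apply hM
      · simp; exact hx
      · simp; linarith
      · simp
    have h5 : 1 ≤ (8 / x) ^ 3 * ‖LFunction χ z‖ ^ 4 * M := by
      refine h.le.trans ?_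
      gcongr
    rw [div_le_iff₀ (by positivity)]
    have hx3 : 0 < x ^ 3 := by positivity
    calc x ^ 3 = x ^ 3 * 1 := (mul_one _).symm
      _ ≤ x ^ 3 * ((8 / x) ^ 3 * ‖LFunction χ z‖ ^ 4 * M) := by gcongr
      _ = ‖LFunction χ z‖ ^ 4 * (512 * M) := by
          field_simp
          ring
  -- the choice of y
  set y : ℝ := 1 / (8192 * M * M' ^ 4) with hy
  have hMM : 0 < 8192 * M * M' ^ 4 := by positivity
  have hy0 : 0 < y := by positivity
  have hy1 : y ≤ 1 := by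
    rw [hy, div_le_one hMM]
    have : 1 ≤ M' ^ 4 := one_le_pow₀ hM1'
    nlinarith
  have hyM : M' * y = 1 / (8192 * M * M' ^ 3) := by
    rw [hy]
    field_simp
  have hkey2 : ∀ x : ℝ, y ≤ x → x ≤ 1 → ∀ z : ℂ, z = 1 + x + I * t → 2 * M' * y ≤ ‖LFunction χ z‖ := by
    intro x hxy hx1 z hz
    have h := key x (by linarith) hx1 z hz
    have h3 : (2 * M' * y) ^ 4 ≤ ‖LFunction χ z‖ ^ 4 := by
      refine le_trans ?_ h
      have h4 : (2 * M' * y) ^ 4 = y ^ 3 / (512 * M) := by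
        have e : y ^ 4 = y ^ 3 * (1 / (8192 * M * M' ^ 4)) := by rw [← hy]; ring
        rw [mul_pow, e]
        field_simp
        ring
      rw [h4]
      gcongr
    exact (pow_le_pow_iff_left₀ (by positivity) (norm_nonneg _) (by norm_num)).mp h3
  rw [← hyM]
  have hs : s = 1 + ((s.re - 1 : ℝ) : ℂ) + I * t := by
    apply Complex.ext
    · simp
    · simp [him]
  rcases le_or_gt y (s.re - 1) with h | h
  · have := hkey2 (s.re - 1) h (by linarith) s hs
    have : 0 < M' * y := by positivity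
    linarith
  · set w : ℂ := 1 + (y : ℂ) + I * t with hw
    have hwv := hkey2 y le_rfl hy1 w hw
    have hseg : ∀ z ∈ segment ℝ s w, 1 < z.re ∧ z.re ≤ 2 ∧ z.im = t := by
      intro z hz
      obtain ⟨a, b, ha, hb, hab, rfl⟩ := hz
      have hwre : w.re = 1 + y := by simp [hw]
      have hwim : w.im = t := by simp [hw]
      refine ⟨?_, ?_, ?_⟩
      · simp only [Complex.add_re, Complex.real_smul, Complex.re_ofReal_mul, hwre]
        rcases eq_or_lt_of_le ha with h0 | h0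
        · rw [← h0] at hab ⊢
          have : b = 1 := by linarith
          rw [this]; linarith
        · nlinarith
      · simp only [Complex.add_re, Complex.real_smul, Complex.re_ofReal_mul, hwre]
        nlinarith
      · simp only [Complex.add_im, Complex.real_smul, Complex.im_ofReal_mul, hwim, him]
        rw [← add_mul, hab, one_mul]
    have hdiff := Convex.norm_image_sub_le_of_norm_deriv_le (𝕜 := ℂ) (f := LFunction χ) (C := M')
      (s := segment ℝ s w) (x := w) (y := s)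
      (fun z _ => (differentiable_LFunction hχ).differentiableAt)
      (fun z hz => hM' z (hseg z hz).1 (hseg z hz).2.1 (hseg z hz).2.2)
      (convex_segment s w) (right_mem_segment ℝ s w) (left_mem_segment ℝ s w)
    have hsw : ‖s - w‖ ≤ y := by
      have : s - w = ((s.re - 1 - y : ℝ) : ℂ) := by
        nth_rewrite 1 [hs]
        rw [hw]
        push_cast
        ring
      rw [this, Complex.norm_real, Real.norm_eq_abs, abs_le]
      constructor <;> linarith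
    have h3 : ‖LFunction χ w‖ - ‖LFunction χ s‖ ≤ ‖LFunction χ s - LFunction χ w‖ := by
      rw [norm_sub_rev]
      exact norm_sub_norm_le _ _
    have h4 : M' * ‖s - w‖ ≤ M' * y := by gcongr
    linarith

end

end Crest.Agent.SW
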